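import Vale.Agent.P254.Bdl.B11
import Mathlib.Analysis.Real.Pi.Bounds
import Mathlib.Analysis.SpecialFunctions.Log.Deriv

/-! P254: one-variable data for the static profile with `δ = 7/40`.

The profile is `w x = α x + ∑ (β_k / q_k) log (1 + q_k x) - δ` with three logarithms. -/

namespace Vale.Agent.P254.H242

open Set Vale.Agent.P254.L Vale.Agent.P254.St625

namespace W175

noncomputable def w (x : ℝ) : ℝ :=
  1459 / 10000 * x + 3403 / 7000 * Real.log (1 + 7 / 10 * x) +
    761 / 7500 * Real.log (1 + 15 / 4 * x) + 1333 / 100000 * Real.log (1 + 10 * x) - 7 / 40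

noncomputable def w1 (x : ℝ) : ℝ :=
  1459 / 10000 + 3403 / 10000 / (1 + 7 / 10 * x) + 3805 / 10000 / (1 + 15 / 4 * x) +
    1333 / 10000 / (1 + 10 * x)

noncomputable def w2 (x : ℝ) : ℝ :=
  -(23821 / 100000) / (1 + 7 / 10 * x) ^ 2 - 2283 / 1600 / (1 + 15 / 4 * x) ^ 2 -
    1333 / 1000 / (1 + 10 * x) ^ 2

theorem lin (q x : ℝ) : HasDerivAt (fun x : ℝ => 1 + q * x) q x := by
  have := ((hasDerivAt_id x).const_mul q).const_add 1
  simpa using this

theorem hd1 {x : ℝ} (hx : 0 < x) : HasDerivAt w (w1 x) x := by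
  have hp : (1 + 7 / 10 * x) ≠ 0 := by positivity
  have hq : (1 + 15 / 4 * x) ≠ 0 := by positivity
  have hr : (1 + 10 * x) ≠ 0 := by positivity
  have h2 := (((((hasDerivAt_id x).const_mul (1459 / 10000 : ℝ)).add
    (((lin (7 / 10) x).log hp).const_mul (3403 / 7000 : ℝ))).add
    (((lin (15 / 4) x).log hq).const_mul (761 / 7500 : ℝ))).add
    (((lin 10 x).log hr).const_mul (1333 / 100000 : ℝ))).sub_const (7 / 40)
  refine h2.congr_deriv ?_
  unfold w1
  ring

theorem hd2 {x : ℝ} (hx : 0 < x) : HasDerivAt w1 (w2 x) x := by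
  have hp : (1 + 7 / 10 * x) ≠ 0 := by positivity
  have hq : (1 + 15 / 4 * x) ≠ 0 := by positivity
  have hr : (1 + 10 * x) ≠ 0 := by positivity
  have h2 := ((((hasDerivAt_const x (3403 / 10000 : ℝ)).div (lin (7 / 10) x) hp).const_add
    (1459 / 10000)).add ((hasDerivAt_const x (3805 / 10000 : ℝ)).div (lin (15 / 4) x) hq)).add
    ((hasDerivAt_const x (1333 / 10000 : ℝ)).div (lin 10 x) hr)
  refine h2.congr_deriv ?_
  unfold w2
  ring

theorem c_eq {x : ℝ} : 1 / 4 - x ^ 2 * w2 x / 2 = 1 / 4 +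
    23821 / 200000 * (x / (1 + 7 / 10 * x)) ^ 2 + 2283 / 3200 * (x / (1 + 15 / 4 * x)) ^ 2 +
      1333 / 2000 * (x / (1 + 10 * x)) ^ 2 := by
  unfold w2
  rw [div_pow, div_pow, div_pow]
  ring

theorem dd1_eq {x y : ℝ} (hx : 0 < x) (hy : 0 < y) :
    dd1 w1 w2 x y = -(23821 / 100000) / ((1 + 7 / 10 * x) * (1 + 7 / 10 * y)) -
      2283 / 1600 / ((1 + 15 / 4 * x) * (1 + 15 / 4 * y)) -
      1333 / 1000 / ((1 + 10 * x) * (1 + 10 * y)) := by
  have hpx : (1 + 7 / 10 * x) ≠ 0 := by positivity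
  have hpy : (1 + 7 / 10 * y) ≠ 0 := by positivity
  have hqx : (1 + 15 / 4 * x) ≠ 0 := by positivity
  have hqy : (1 + 15 / 4 * y) ≠ 0 := by positivity
  have hrx : (1 + 10 * x) ≠ 0 := by positivity
  have hry : (1 + 10 * y) ≠ 0 := by positivity
  unfold dd1
  split_ifs with h
  · subst h
    unfold w2
    rw [pow_two, pow_two, pow_two]
  · have h' : x - y ≠ 0 := sub_ne_zero.2 h
    have e1 : 3403 / 10000 / (1 + 7 / 10 * x) - 3403 / 10000 / (1 + 7 / 10 * y) =
        -(23821 / 100000) / ((1 + 7 / 10 * x) * (1 + 7 / 10 * y)) * (x - y) := by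
      field_simp
      ring
    have e2 : 3805 / 10000 / (1 + 15 / 4 * x) - 3805 / 10000 / (1 + 15 / 4 * y) =
        -(2283 / 1600 / ((1 + 15 / 4 * x) * (1 + 15 / 4 * y))) * (x - y) := by
      field_simp
      ring
    have e3 : 1333 / 10000 / (1 + 10 * x) - 1333 / 10000 / (1 + 10 * y) =
        -(1333 / 1000 / ((1 + 10 * x) * (1 + 10 * y))) * (x - y) := by
      field_simp
      ring
    rw [div_eq_iff h']
    unfold w1
    linear_combination e1 + e2 + e3

/-- the polynomial of the differential inequality (numerator, times `256 * 10 ^ 6`) -/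
noncomputable def pol (t : ℝ) : ℝ :=
  490240 - 10716576 * t + 162771304 * t ^ 2 - 440260492 * t ^ 3 - 1115920210 * t ^ 4 +
    2919924987 * t ^ 5 + 6085696205 * t ^ 6 - 3225681130 * t ^ 7 - 13139554225 * t ^ 8 -
    4941396850 * t ^ 9 + 7740628875 * t ^ 10 + 8137337250 * t ^ 11 + 3619231875 * t ^ 12 +
    402136875 * t ^ 13

theorem pol_left {t : ℝ} (h0 : 0 ≤ t) (h1 : t ≤ 3 / 8) : 0 ≤ pol t := by
  have ha : 0 ≤ t := h0
  have hb : 0 ≤ 3 / 8 - t := by linarith
  have e : pol t = 269512290200453120 / 1594323 * (3 / 8 - t) ^ 13 + 1294347287241162752 / 1594323 * t * (3 / 8 -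
      t) ^ 12 + 2364654168196513792 / 531441 * t ^ 2 * (3 / 8 - t) ^ 11 + 56923576789586935808 /
      1594323 * t ^ 3 * (3 / 8 - t) ^ 10 + 258991067550722293760 / 1594323 * t ^ 4 * (3 / 8 - t) ^ 9
      + 73103001283685515264 / 177147 * t ^ 5 * (3 / 8 - t) ^ 8 + 333834389197573586944 / 531441 * t
      ^ 6 * (3 / 8 - t) ^ 7 + 310643986670170931200 / 531441 * t ^ 7 * (3 / 8 - t) ^ 6 +
      57092211128868241408 / 177147 * t ^ 8 * (3 / 8 - t) ^ 5 + 159422166903823278080 / 1594323 * t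
      ^ 9 * (3 / 8 - t) ^ 4 + 42316286001845044736 / 1594323 * t ^ 10 * (3 / 8 - t) ^ 3 +
      9106120672867369600 / 531441 * t ^ 11 * (3 / 8 - t) ^ 2 + 13039179516106743704 / 1594323 * t ^
      12 * (3 / 8 - t) + 2226292189132054409 / 1594323 * t ^ 13 := by
    unfold pol
    ring
  rw [e]
  positivity

theorem pol_right {t : ℝ} (h0 : 3 / 8 ≤ t) (h1 : t ≤ 1) : 0 ≤ pol t := by
  have ha : 0 ≤ t - 3 / 8 := by linarith
  have hb : 0 ≤ 1 - t := by linarith
  have e : pol t = 2226292189132054409 / 1220703125 * (1 - t) ^ 13 + 55446163363066646672 / 1220703125 * (t - 3 /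
      8) * (1 - t) ^ 12 + 615311498986781261312 / 1220703125 * (t - 3 / 8) ^ 2 * (1 - t) ^ 11 +
      3904585449981650850304 / 1220703125 * (t - 3 / 8) ^ 3 * (1 - t) ^ 10 + 3103294580843966533632
      / 244140625 * (t - 3 / 8) ^ 4 * (1 - t) ^ 9 + 40053213047078265028608 / 1220703125 * (t - 3 /
      8) ^ 5 * (1 - t) ^ 8 + 67227777043497501589504 / 1220703125 * (t - 3 / 8) ^ 6 * (1 - t) ^ 7 +
      70566929635925414641664 / 1220703125 * (t - 3 / 8) ^ 7 * (1 - t) ^ 6 + 41906586318755193683968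
      / 1220703125 * (t - 3 / 8) ^ 8 * (1 - t) ^ 5 + 2733047526517775532032 / 244140625 * (t - 3 /
      8) ^ 9 * (1 - t) ^ 4 + 12547799168511402573824 / 1220703125 * (t - 3 / 8) ^ 10 * (1 - t) ^ 3 +
      19840367520777693560832 / 1220703125 * (t - 3 / 8) ^ 11 * (1 - t) ^ 2 +
      13674681147406105444352 / 1220703125 * (t - 3 / 8) ^ 12 * (1 - t) + 3405565813590971121664 /
      1220703125 * (t - 3 / 8) ^ 13 := by
    unfold pol
    ring
  rw [e]
  positivity

theorem pol_nonneg {t : ℝ} (h0 : 0 ≤ t) (h1 : t ≤ 1) : 0 ≤ pol t := by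
  rcases le_total t (3 / 8) with h | h
  · exact pol_left h0 h
  · exact pol_right h h1

theorem ode_aux {t : ℝ} (h0 : 0 < t) (h1 : t < 1) :
    (1 / 4 + 23821 / 200000 * (((t + t ^ 2) / 2) / (1 + 7 / 10 * ((t + t ^ 2) / 2))) ^ 2 +
      2283 / 3200 * (((t + t ^ 2) / 2) / (1 + 15 / 4 * ((t + t ^ 2) / 2))) ^ 2 +
      1333 / 2000 * (((t + t ^ 2) / 2) / (1 + 10 * ((t + t ^ 2) / 2))) ^ 2) *
      (4 * ((1 - t) / (1 + t))) ≤
    (1459 / 10000 + 3403 / 10000 / (1 + 7 / 10 * ((t + t ^ 2) / 2)) +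
      3805 / 10000 / (1 + 15 / 4 * ((t + t ^ 2) / 2)) +
      1333 / 10000 / (1 + 10 * ((t + t ^ 2) / 2))) * (1 - (t + t ^ 2) / 2) := by
  have hp : 0 < 1 + 7 / 10 * ((t + t ^ 2) / 2) := by positivity
  have hq : 0 < 1 + 15 / 4 * ((t + t ^ 2) / 2) := by positivity
  have hr : 0 < 1 + 10 * ((t + t ^ 2) / 2) := by positivity
  have ht1 : 0 < 1 + t := by linarith
  have hP := pol_nonneg h0.le h1.le
  have hP2 : 0 ≤ (1 - t) * (t * pol t) := mul_nonneg (by linarith) (mul_nonneg h0.le hP)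
  rw [← sub_nonneg]
  have e : (1459 / 10000 + 3403 / 10000 / (1 + 7 / 10 * ((t + t ^ 2) / 2)) +
      3805 / 10000 / (1 + 15 / 4 * ((t + t ^ 2) / 2)) +
      1333 / 10000 / (1 + 10 * ((t + t ^ 2) / 2))) * (1 - (t + t ^ 2) / 2) -
      (1 / 4 + 23821 / 200000 * (((t + t ^ 2) / 2) / (1 + 7 / 10 * ((t + t ^ 2) / 2))) ^ 2 +
      2283 / 3200 * (((t + t ^ 2) / 2) / (1 + 15 / 4 * ((t + t ^ 2) / 2))) ^ 2 +
      1333 / 2000 * (((t + t ^ 2) / 2) / (1 + 10 * ((t + t ^ 2) / 2))) ^ 2) *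
      (4 * ((1 - t) / (1 + t))) = ((1 - t) * (t * pol t)) /
      (512000000 * (1 + t) * ((1 + 7 / 10 * ((t + t ^ 2) / 2)) ^ 2 *
        (1 + 15 / 4 * ((t + t ^ 2) / 2)) ^ 2 * (1 + 10 * ((t + t ^ 2) / 2)) ^ 2)) := by
    unfold pol
    field_simp
    ring_nf
  rw [e]
  positivity

theorem log_17 : Real.log (17 / 10) ≤ Real.log 2 - 162514 / 1000000 := by
  have e : (17 / 10 : ℝ) = 2 * (1 - 15 / 100) := by norm_num
  rw [e, Real.log_mul (by norm_num) (by norm_num)]
  have h3 := Real.abs_log_sub_add_sum_range_le (x := 15 / 100) (by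
    rw [abs_of_pos (by norm_num)]; norm_num) 6
  rw [abs_of_pos (by norm_num : (0 : ℝ) < 15 / 100)] at h3
  have h4 := (abs_le.1 h3).2
  simp only [Finset.sum_range_succ, Finset.sum_range_zero] at h4
  norm_num at h4 ⊢
  linarith

theorem log_475 : Real.log (19 / 4) ≤ 2 * Real.log 2 + 171854 / 1000000 := by
  have e : Real.log (19 / 4) = 2 * Real.log 2 - Real.log (1 - 3 / 19) := by
    have e1 : (19 / 4 : ℝ) = 2 ^ 2 / (1 - 3 / 19) := by norm_num
    rw [e1, Real.log_div (by norm_num) (by norm_num), Real.log_pow]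
    push_cast
    ring
  rw [e]
  have h3 := Real.abs_log_sub_add_sum_range_le (x := 3 / 19) (by
    rw [abs_of_pos (by norm_num)]; norm_num) 6
  rw [abs_of_pos (by norm_num : (0 : ℝ) < 3 / 19)] at h3
  have h4 := (abs_le.1 h3).1
  simp only [Finset.sum_range_succ, Finset.sum_range_zero] at h4
  norm_num at h4 ⊢
  linarith

theorem log_11 : Real.log 11 ≤ 3 * Real.log 2 + 318660 / 1000000 := by
  have e : Real.log 11 = 3 * Real.log 2 - Real.log (1 - 3 / 11) := by
    have e1 : (11 : ℝ) = 2 ^ 3 / (1 - 3 / 11) := by norm_num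
    rw [e1, Real.log_div (by norm_num) (by norm_num), Real.log_pow]
    push_cast
    ring
  rw [e]
  have h3 := Real.abs_log_sub_add_sum_range_le (x := 3 / 11) (by
    rw [abs_of_pos (by norm_num)]; norm_num) 6
  rw [abs_of_pos (by norm_num : (0 : ℝ) < 3 / 11)] at h3
  have h4 := (abs_le.1 h3).1
  simp only [Finset.sum_range_succ, Finset.sum_range_zero] at h4
  norm_num at h4 ⊢
  linarith

theorem log_2pi : 3 * Real.log 2 - 241567 / 1000000 ≤ Real.log (2 * Real.pi) := by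
  have hpi := Real.pi_gt_d6
  have h2 : 3 * Real.log 2 + Real.log (1 - 214602 / 1000000) ≤ Real.log (2 * Real.pi) := by
    have e : 3 * Real.log 2 + Real.log (1 - 214602 / 1000000) =
        Real.log (2 ^ 3 * (1 - 214602 / 1000000)) := by
      rw [Real.log_mul (by norm_num) (by norm_num), Real.log_pow]
      push_cast
      ring
    rw [e]
    refine Real.log_le_log (by norm_num) ?_
    norm_num
    linarith
  have h3 := Real.abs_log_sub_add_sum_range_le (x := 214602 / 1000000) (by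
    rw [abs_of_pos (by norm_num)]; norm_num) 8
  rw [abs_of_pos (by norm_num : (0 : ℝ) < 214602 / 1000000)] at h3
  have h4 := (abs_le.1 h3).1
  simp only [Finset.sum_range_succ, Finset.sum_range_zero] at h4
  norm_num at h4 h2 ⊢
  linarith

theorem log_bound : (1459 : ℝ) / 10000 + 3403 / 7000 * Real.log (17 / 10) +
    761 / 7500 * Real.log (19 / 4) + 1333 / 100000 * Real.log 11 - 7 / 40 ≤
    1 / 2 * Real.log (2 * Real.pi * Real.exp 1) - 1 := by
  have h1 := log_17
  have h2 := log_475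
  have h3 := log_11
  have h4 := log_2pi
  have h5 := Real.log_two_lt_d9
  have h6 := Real.log_two_gt_d9
  rw [Real.log_mul (by positivity) (Real.exp_pos 1).ne', Real.log_exp]
  linarith

/-- Cauchy–Schwarz for the coefficient function of the profile. -/
theorem cs_aux (a b c d u v p q r s : ℝ) (ha : 0 ≤ a) (hb : 0 ≤ b) (hc : 0 ≤ c) (hd : 0 ≤ d) :
    (d + a * (u * v) + b * (p * q) + c * (r * s)) ^ 2 ≤
      (d + a * u ^ 2 + b * p ^ 2 + c * r ^ 2) * (d + a * v ^ 2 + b * q ^ 2 + c * s ^ 2) := by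
  have e : (d + a * u ^ 2 + b * p ^ 2 + c * r ^ 2) * (d + a * v ^ 2 + b * q ^ 2 + c * s ^ 2) -
      (d + a * (u * v) + b * (p * q) + c * (r * s)) ^ 2 =
      d * a * (u - v) ^ 2 + d * b * (p - q) ^ 2 + d * c * (r - s) ^ 2 +
        a * b * (u * q - v * p) ^ 2 + a * c * (u * s - v * r) ^ 2 +
        b * c * (p * s - q * r) ^ 2 := by
    ring
  have : 0 ≤ d * a * (u - v) ^ 2 + d * b * (p - q) ^ 2 + d * c * (r - s) ^ 2 +
        a * b * (u * q - v * p) ^ 2 + a * c * (u * s - v * r) ^ 2 +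
        b * c * (p * s - q * r) ^ 2 := by
    positivity
  linarith

theorem cij_aux (x y P P' Q Q' R R' : ℝ) :
    1 / 4 - x * y * (-(23821 / 100000) / (P * P') - 2283 / 1600 / (Q * Q') -
        1333 / 1000 / (R * R')) / 2 =
      1 / 4 + 23821 / 200000 * (x / P * (y / P')) + 2283 / 3200 * (x / Q * (y / Q')) +
        1333 / 2000 * (x / R * (y / R')) := by
  ring

end W175

/-- the one-variable data with `δ = 7/40` -/
noncomputable def wp : WP (7 / 40) kst where
  w := W175.w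
  w1 := W175.w1
  w2 := W175.w2
  d1 := fun x hx => W175.hd1 hx.1
  d2 := fun x hx => W175.hd2 hx.1
  ode := by
    rintro x ⟨hx0, hx1⟩
    rw [W175.c_eq]
    set s : ℝ := Real.sqrt (1 + 8 * x) with hs
    have hs2 : s ^ 2 = 1 + 8 * x := Real.sq_sqrt (by positivity)
    have hs0 : 0 ≤ s := Real.sqrt_nonneg _
    have hs1 : 1 < s := by nlinarith
    have hs3 : s < 3 := by nlinarith
    set t : ℝ := (s - 1) / 2 with ht
    have hst : s = 1 + 2 * t := by rw [ht]; ring
    have ht0 : 0 < t := by rw [ht]; linarith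
    have ht1 : t < 1 := by rw [ht]; linarith
    have hxt : x = (t + t ^ 2) / 2 := by
      have : 8 * x = s ^ 2 - 1 := by linarith
      rw [hst] at this
      nlinarith
    have hk : kst x = 4 * ((1 - t) / (1 + t)) := by
      unfold kst yy
      rw [← hs, hst, hxt]
      have : 0 < t + t ^ 2 := by positivity
      have h1 : 1 + t ≠ 0 := by positivity
      field_simp
      ring
    rw [hk, hxt]
    exact W175.ode_aux ht0 ht1
  c_pos := by
    rintro x ⟨hx0, -⟩
    rw [W175.c_eq]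
    positivity
  w_ge := by
    rintro x ⟨hx0, -⟩
    have h1 : 0 ≤ Real.log (1 + 7 / 10 * x) := Real.log_nonneg (by linarith)
    have h2 : 0 ≤ Real.log (1 + 15 / 4 * x) := Real.log_nonneg (by linarith)
    have h3 : 0 ≤ Real.log (1 + 10 * x) := Real.log_nonneg (by linarith)
    unfold W175.w
    linarith
  w_le := by
    rintro x ⟨hx0, hx1⟩
    have h1 : Real.log (1 + 7 / 10 * x) ≤ Real.log (17 / 10) :=
      Real.log_le_log (by positivity) (by linarith)
    have h2 : Real.log (1 + 15 / 4 * x) ≤ Real.log (19 / 4) :=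
      Real.log_le_log (by positivity) (by linarith)
    have h3 : Real.log (1 + 10 * x) ≤ Real.log 11 :=
      Real.log_le_log (by positivity) (by linarith)
    refine le_trans ?_ W175.log_bound
    unfold W175.w
    linarith
  cij := by
    rintro x ⟨hx0, -⟩ y ⟨hy0, -⟩
    rw [W175.c_eq, W175.c_eq, W175.dd1_eq hx0 hy0]
    have hpx : (1 + 7 / 10 * x) ≠ 0 := by positivity
    have hpy : (1 + 7 / 10 * y) ≠ 0 := by positivity
    have hqx : (1 + 15 / 4 * x) ≠ 0 := by positivity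
    have hqy : (1 + 15 / 4 * y) ≠ 0 := by positivity
    have hrx : (1 + 10 * x) ≠ 0 := by positivity
    have hry : (1 + 10 * y) ≠ 0 := by positivity
    have e : 1 / 4 - x * y * (-(23821 / 100000) / ((1 + 7 / 10 * x) * (1 + 7 / 10 * y)) -
        2283 / 1600 / ((1 + 15 / 4 * x) * (1 + 15 / 4 * y)) -
        1333 / 1000 / ((1 + 10 * x) * (1 + 10 * y))) / 2 =
        1 / 4 + 23821 / 200000 * (x / (1 + 7 / 10 * x) * (y / (1 + 7 / 10 * y))) +
        2283 / 3200 * (x / (1 + 15 / 4 * x) * (y / (1 + 15 / 4 * y))) +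
        1333 / 2000 * (x / (1 + 10 * x) * (y / (1 + 10 * y))) := by
      exact W175.cij_aux _ _ _ _ _ _ _ _
    rw [e, ← Real.sqrt_mul (by positivity)]
    exact Real.le_sqrt_of_sq_le
      (W175.cs_aux _ _ _ _ _ _ _ _ _ _ (by norm_num) (by norm_num) (by norm_num) (by norm_num))

end Vale.Agent.P254.H242
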