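import Vale.Agent.P254.H242.Rot

/-!
P254: bodies invariant under the rotations in some coordinates: exchange of the balls by simplices.
-/

open MeasureTheory Set Matrix

namespace Vale.Agent.P254.H242

open FV US

variable {n q p : ℕ}

/-- invariance under the rotations in the coordinates `T` -/
def RInv (T : Finset (Fin n)) (K : Set (Fin n → ℝ)) : Prop :=
  ∀ x ∈ K, ∀ y : Fin n → ℝ, (∀ i, i ∉ T → y i = x i) → ∑ i ∈ T, y i ^ 2 = ∑ i ∈ T, x i ^ 2 → y ∈ K

theorem exists_split (T : Finset (Fin n)) : ∃ (q : ℕ) (e : Fin n ≃ Fin q ⊕ Fin T.card),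
    (∀ j, e.symm (Sum.inl j) ∉ T) ∧ ∀ j, e.symm (Sum.inr j) ∈ T := by
  classical
  refine ⟨Fintype.card {i // i ∉ T},
    ((Equiv.sumCompl (fun i => i ∈ T)).symm.trans (Equiv.sumComm _ _)).trans
      (Equiv.sumCongr (Fintype.equivFin {i // i ∉ T}) T.equivFin), fun j => ?_, fun j => ?_⟩
  · simpa using ((Fintype.equivFin {i // i ∉ T}).symm j).2
  · simp

theorem sum_T {T : Finset (Fin n)} {e : Fin n ≃ Fin q ⊕ Fin p}
    (h1 : ∀ j, e.symm (Sum.inl j) ∉ T) (h2 : ∀ j, e.symm (Sum.inr j) ∈ T) (f : Fin n → ℝ) :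
    ∑ i ∈ T, f i = ∑ j, f (e.symm (Sum.inr j)) := by
  classical
  have h3 : ∑ i ∈ T, f i = ∑ i, if i ∈ T then f i else 0 := by
    rw [Finset.sum_ite_mem, Finset.univ_inter]
  rw [h3, ← Equiv.sum_comp e.symm, Fintype.sum_sum_type]
  simp [h1, h2]

theorem sp_lin (e : Fin n ≃ Fin q ⊕ Fin p) (a b : ℝ) (w w' : (Fin q → ℝ) × (Fin p → ℝ)) :
    sp e (a • w + b • w') = a • sp e w + b • sp e w' := by
  refine ext_yx e ?_ ?_
  · rw [yp_sp]
    funext j
    show a * w.1 j + b * w'.1 j = a * sp e w (e.symm (Sum.inl j)) + b * sp e w' (e.symm (Sum.inl j))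
    rw [sp_inl, sp_inl]
  · rw [xp_sp]
    funext j
    show a * w.2 j + b * w'.2 j = a * sp e w (e.symm (Sum.inr j)) + b * sp e w' (e.symm (Sum.inr j))
    rw [sp_inr, sp_inr]

theorem inv_sp {T : Finset (Fin n)} {K : Set (Fin n → ℝ)} (hR : RInv T K)
    {e : Fin n ≃ Fin q ⊕ Fin p} (h1 : ∀ j, e.symm (Sum.inl j) ∉ T)
    (h2 : ∀ j, e.symm (Sum.inr j) ∈ T) {y : Fin q → ℝ} {x x' : Fin p → ℝ}
    (hx : sp e (y, x) ∈ K) (h : ∑ j, x' j ^ 2 = ∑ j, x j ^ 2) : sp e (y, x') ∈ K := by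
  refine hR _ hx _ (fun i hi => ?_) ?_
  · obtain ⟨s, rfl⟩ := e.symm.surjective i
    rcases s with j | j
    · rw [sp_inl, sp_inl]
    · exact absurd (h2 j) hi
  · rw [sum_T h1 h2, sum_T h1 h2]
    simp only [sp_inr]
    exact h

/-- the base of the exchange -/
def HH (e : Fin n ≃ Fin q ⊕ Fin p) (K : Set (Fin n → ℝ)) (u : Fin p → ℝ) :
    Set ((Fin q → ℝ) × ℝ) := {w | 0 ≤ w.2 ∧ sp e (w.1, w.2 • u) ∈ K}

theorem hg_HH {T : Finset (Fin n)} {K : Set (Fin n → ℝ)} (hK : IsConvexBody K) (hR : RInv T K)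
    {e : Fin n ≃ Fin q ⊕ Fin p} (h1 : ∀ j, e.symm (Sum.inl j) ∉ T)
    (h2 : ∀ j, e.symm (Sum.inr j) ∈ T) (j0 : Fin p) : HG (HH e K (Pi.single j0 1)) := by
  set u : Fin p → ℝ := Pi.single j0 1 with hu
  have hu1 : u j0 = 1 := by rw [hu, Pi.single_eq_same]
  refine ⟨?_, ?_, fun y r h => h.1, ?_⟩
  · intro w hw w' hw' a b ha hb hab
    refine ⟨?_, ?_⟩
    · show 0 ≤ a * w.2 + b * w'.2
      have := mul_nonneg ha hw.1
      have := mul_nonneg hb hw'.1
      linarith
    · have h3 := hK.1 hw.2 hw'.2 ha hb hab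
      rw [← sp_lin] at h3
      convert h3 using 2
      refine Prod.ext rfl ?_
      funext j
      show (a * w.2 + b * w'.2) * u j = a * (w.2 * u j) + b * (w'.2 * u j)
      ring
  · refine Metric.isCompact_of_isClosed_isBounded ?_ ?_
    · refine (isClosed_le continuous_const continuous_snd).inter (hK.2.1.isClosed.preimage ?_)
      exact (cont_sp e).comp (by fun_prop)
    · obtain ⟨R, hR2⟩ := hK.2.1.isBounded.subset_closedBall (0 : Fin n → ℝ)
      refine (Metric.isBounded_closedBall (x := (0 : (Fin q → ℝ) × ℝ)) (r := R)).subset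
        fun w hw => ?_
      have h3 := hR2 hw.2
      rw [mem_closedBall_zero_iff] at h3 ⊢
      have h4 := fun i => (norm_le_pi_norm (sp e (w.1, w.2 • u)) i).trans h3
      have hR0 : 0 ≤ R := (norm_nonneg _).trans h3
      refine (Prod.norm_def w).le.trans (max_le ?_ ?_)
      · refine (pi_norm_le_iff_of_nonneg hR0).2 fun j => ?_
        have := h4 (e.symm (Sum.inl j))
        rwa [sp_inl] at this
      · have := h4 (e.symm (Sum.inr j0))
        rw [sp_inr] at this
        simpa [hu1] using this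
  · rintro y r s ⟨hr, hy⟩ hs hsr
    refine ⟨hs, ?_⟩
    change 0 ≤ r at hr
    change sp e (y, r • u) ∈ K at hy
    show sp e (y, s • u) ∈ K
    rcases hr.eq_or_lt with h0 | h0
    · have : s = r := by linarith
      rw [this]
      exact hy
    · have h3 : sp e (y, (-r) • u) ∈ K := inv_sp hR h1 h2 hy (by
        refine Finset.sum_congr rfl fun j _ => ?_
        simp only [Pi.smul_apply, smul_eq_mul]
        ring)
      have h5 : 0 ≤ (r + s) / (2 * r) := div_nonneg (by linarith) (by linarith)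
      have h6 : 0 ≤ (r - s) / (2 * r) := div_nonneg (by linarith) (by linarith)
      have h4 := hK.1 hy h3 h5 h6 (by
          field_simp
          ring)
      rw [← sp_lin] at h4
      convert h4 using 2
      refine Prod.ext ?_ ?_
      · funext j
        show y j = (r + s) / (2 * r) * y j + (r - s) / (2 * r) * y j
        field_simp
        ring
      · funext j
        show s * u j = (r + s) / (2 * r) * (r * u j) + (r - s) / (2 * r) * (-r * u j)
        field_simp
        ring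

theorem fb_HH {T : Finset (Fin n)} {K : Set (Fin n → ℝ)} (hR : RInv T K)
    {e : Fin n ≃ Fin q ⊕ Fin p} (h1 : ∀ j, e.symm (Sum.inl j) ∉ T)
    (h2 : ∀ j, e.symm (Sum.inr j) ∈ T) (j0 : Fin p) :
    fb e (HH e K (Pi.single j0 1)) NN = K := by
  have h3 : ∀ x : Fin p → ℝ, ∑ j, (NN x • (Pi.single j0 1 : Fin p → ℝ)) j ^ 2 = ∑ j, x j ^ 2 := by
    intro x
    rw [← NN_sq x]
    simp only [Pi.smul_apply, smul_eq_mul, mul_pow]
    rw [← Finset.mul_sum]
    have : ∑ j, (Pi.single j0 1 : Fin p → ℝ) j ^ 2 = 1 := by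
      rw [Finset.sum_eq_single j0]
      · simp
      · intro b _ hb
        simp [Pi.single_eq_of_ne hb]
      · simp
    rw [this, mul_one]
  ext z
  constructor
  · rintro ⟨-, h4⟩
    have h5 := inv_sp hR h1 h2 h4 (h3 (xp e z)).symm
    rwa [sp_yx] at h5
  · intro hz
    refine ⟨Real.sqrt_nonneg _, ?_⟩
    rw [← sp_yx e z] at hz
    exact inv_sp hR h1 h2 hz (h3 (xp e z))

theorem Dn_aff {K : Set (Fin n → ℝ)} (hK : IsConvexBody K) {A : Matrix (Fin n) (Fin n) ℝ}
    (hA : A.det ≠ 0) (b : Fin n → ℝ) :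
    IsConvexBody (aff A b '' K) ∧ Dn (aff A b '' K) = Dn K := by
  have hV := (vol_pos hK).ne'
  refine ⟨body_of_vol ?_ (isCompact_aff_image A b hK.2.1) ?_, ?_⟩
  · rw [← coe_affMap]
    exact hK.1.affine_image _
  · rw [volume_aff_image hA b hK.2.1.measurableSet]
    exact mul_ne_zero (abs_ne_zero.2 hA) hV
  · unfold Dn
    rw [cov_aff_image hA b hK.2.1 hV, volume_aff_image hA b hK.2.1.measurableSet,
      det_mul, det_mul, det_transpose, mul_pow, sq_abs]
    field_simp

theorem body_stdS : IsConvexBody (stdS n) :=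
  body_of_vol convex_stdS isCompact_stdS volume_stdS_pos.ne'

/-- a simplex with centroid `0` -/
theorem exists_centred (hp : 1 ≤ p) : ∃ W : Set (Fin p → ℝ), IsConvexBody W ∧ centroid W = 0 ∧
    Dn W = simpC p := by
  obtain ⟨h1, h2⟩ := Dn_aff (body_stdS (n := p)) (A := 1) (by simp) (-centroid (stdS p))
  refine ⟨_, h1, ?_, h2.trans (Dn_stdS hp)⟩
  rw [centroid_aff_image (by simp) _ isCompact_stdS volume_stdS_pos.ne']
  simp [aff]

theorem cen_int {W : Set (Fin p → ℝ)} (hW : IsConvexBody W) (hc : centroid W = 0) (j : Fin p) :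
    ∫ x in W, x j = 0 := by
  have h := congrFun hc j
  rw [centroid, Pi.zero_apply] at h
  rcases mul_eq_zero.1 h with h1 | h1
  · exact absurd h1 (inv_ne_zero (vol_pos hW).ne')
  · exact h1

/-- **exchange**: the balls in the coordinates `T` are replaced by simplices -/
theorem exch {T : Finset (Fin n)} (hT : 1 ≤ T.card) {K : Set (Fin n → ℝ)} (hK : IsConvexBody K)
    (hR : RInv T K) : ∃ K' : Set (Fin n → ℝ), IsConvexBody K' ∧ Dn K ≤ RR T.card * Dn K' ∧
      ∀ T' : Finset (Fin n), Disjoint T T' → RInv T' K → RInv T' K' := by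
  obtain ⟨q, e, h1, h2⟩ := exists_split T
  have hH := hg_HH hK hR h1 h2 ⟨0, hT⟩
  have hKe := fb_HH hR h1 h2 ⟨0, hT⟩
  set u : Fin T.card → ℝ := Pi.single ⟨0, hT⟩ 1 with hu
  obtain ⟨W, hW, hWc, hWD⟩ := exists_centred hT
  have h0 : (0 : Fin T.card → ℝ) ∈ interior W := by
    have := centroid_mem_interior hW
    rwa [hWc] at this
  obtain ⟨hg, hb⟩ := isG_gauge hW h0
  have hvK := (vol_pos hK).ne'
  have hvW := (vol_pos hW).ne'
  have hV1 := vol_fb e hH isG_NN hT
  rw [hKe] at hV1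
  have hJ : JJ T.card (HH e K u) 0 (fun _ => 1) ≠ 0 := by
    intro h
    rw [h, zero_mul] at hV1
    exact hvK hV1
  have hV2 := vol_fb e hH hg hT
  rw [hb] at hV2
  have hD1 := Dn_fb e hH isG_NN hT ball_cen (by rw [vol_ball hT]; exact (kap_pos _).ne') hJ
  have hD2 := Dn_fb e hH hg hT (fun j => by rw [hb]; exact cen_int hW hWc j) (by rwa [hb]) hJ
  rw [hKe] at hD1
  rw [hb, hWD] at hD2
  have hbody : IsConvexBody (fb e (HH e K u) (gauge W)) :=
    body_of_vol (convex_fb e hH hg) (compact_fb e hH hg) (by rw [hV2]; exact mul_ne_zero hJ hvW)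
  refine ⟨_, hbody, ?_, ?_⟩
  · have hC := simpC_pos T.card
    have hn := Dn_nonneg hbody
    have hP : 0 ≤ Ph T.card (HH e K u) := by
      rw [hD2] at hn
      exact nonneg_of_mul_nonneg_left hn hC
    rw [hD1, hD2]
    refine (mul_le_mul_of_nonneg_left (Dn_ball hT) hP).trans (le_of_eq ?_)
    ring
  · intro T' hd hR' z hz z' hoff hsum
    have h3 : ∀ i ∈ T', i ∉ T := fun i hi hi2 => Finset.disjoint_left.1 hd hi2 hi
    have hx : xp e z' = xp e z := by
      funext j
      exact hoff _ fun hj => h3 _ hj (h2 j)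
    have h4 : ∀ (v : Fin n → ℝ) (x : Fin T.card → ℝ), ∀ i ∈ T', sp e (yp e v, x) i = v i := by
      intro v x i hi
      obtain ⟨s, rfl⟩ := e.symm.surjective i
      rcases s with j | j
      · rw [sp_inl]
        rfl
      · exact absurd (h2 j) (h3 _ hi)
    refine ⟨gauge_nonneg _, ?_⟩
    show sp e (yp e z', gauge W (xp e z') • u) ∈ K
    rw [hx]
    refine hR' _ hz.2 _ (fun i hi => ?_) ?_
    · obtain ⟨s, rfl⟩ := e.symm.surjective i
      rcases s with j | j
      · rw [sp_inl, sp_inl]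
        exact hoff _ hi
      · rw [sp_inr, sp_inr]
    · have e1 : ∑ i ∈ T', sp e (yp e z', gauge W (xp e z) • u) i ^ 2 = ∑ i ∈ T', z' i ^ 2 :=
        Finset.sum_congr rfl fun i hi => by rw [h4 z' _ i hi]
      have e2 : ∑ i ∈ T', sp e (yp e z, gauge W (xp e z) • u) i ^ 2 = ∑ i ∈ T', z i ^ 2 :=
        Finset.sum_congr rfl fun i hi => by rw [h4 z _ i hi]
      rw [e1, e2]
      exact hsum

theorem RR_zero : RR 0 = 1 := by
  simp [RR, kap]

/-- several blocks -/
theorem blocks {m : ℕ} (T : Fin m → Finset (Fin n)) (hd : ∀ i j, i ≠ j → Disjoint (T i) (T j))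
    {K : Set (Fin n → ℝ)} (hK : IsConvexBody K) (hR : ∀ i, RInv (T i) K) :
    ∃ K' : Set (Fin n → ℝ), IsConvexBody K' ∧ Dn K ≤ (∏ i, RR (T i).card) * Dn K' := by
  classical
  have key : ∀ s : Finset (Fin m), ∃ K' : Set (Fin n → ℝ), IsConvexBody K' ∧
      Dn K ≤ (∏ i ∈ s, RR (T i).card) * Dn K' ∧ ∀ j, j ∉ s → RInv (T j) K' := by
    intro s
    induction s using Finset.induction_on with
    | empty => exact ⟨K, hK, by simp, fun j _ => hR j⟩
    | insert i s hi ih =>
      obtain ⟨K', hK', hD, hR'⟩ := ih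
      rw [Finset.prod_insert hi]
      rcases Nat.eq_zero_or_pos (T i).card with h0 | h0
      · refine ⟨K', hK', ?_, fun j hj => hR' j fun hj2 => hj (Finset.mem_insert_of_mem hj2)⟩
        rw [h0, RR_zero, one_mul]
        exact hD
      · obtain ⟨K2, hK2, hD2, hR2⟩ := exch h0 hK' (hR' i hi)
        refine ⟨K2, hK2, ?_, fun j hj => ?_⟩
        · have hp : 0 ≤ ∏ i ∈ s, RR (T i).card := Finset.prod_nonneg fun i _ => (RR_pos _).le
          calc Dn K ≤ (∏ i ∈ s, RR (T i).card) * Dn K' := hD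
            _ ≤ (∏ i ∈ s, RR (T i).card) * (RR (T i).card * Dn K2) :=
                mul_le_mul_of_nonneg_left hD2 hp
            _ = _ := by ring
        · have hji : i ≠ j := fun h => hj (h ▸ Finset.mem_insert_self _ _)
          exact hR2 _ (hd i j hji) (hR' j fun hj2 => hj (Finset.mem_insert_of_mem hj2))
  obtain ⟨K', h1, h2, -⟩ := key Finset.univ
  exact ⟨K', h1, h2⟩

end Vale.Agent.P254.H242
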