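import Vale.Agent.P254.H242.Blk

/-!
P254: numerical bounds for the ratio of the balls and the simplices.
-/

open Set

namespace Vale.Agent.P254.H242

open FV

theorem kap_succ2 (p : ℕ) : kap (p + 2) = kap p * (2 * Real.pi / (p + 2)) := by
  have h1 : (0 : ℝ) < (p : ℝ) / 2 + 1 := by positivity
  have h2 : Real.Gamma (((p + 2 : ℕ) : ℝ) / 2 + 1) = ((p : ℝ) / 2 + 1) * Real.Gamma ((p : ℝ) / 2 + 1) := by
    rw [← Real.Gamma_add_one h1.ne']
    congr 1
    push_cast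
    ring
  have h3 := (Real.Gamma_pos_of_pos h1).ne'
  unfold kap
  rw [h2, pow_add, Real.sq_sqrt Real.pi_pos.le]
  field_simp

theorem kap_zero : kap 0 = 1 := by simp [kap]

theorem kap_one : kap 1 = 2 := by
  have h := Real.Gamma_add_one (s := (1 / 2 : ℝ)) (by norm_num)
  have h1 : Real.Gamma (((1 : ℕ) : ℝ) / 2 + 1) = 1 / 2 * Real.sqrt Real.pi := by
    rw [← Real.Gamma_one_half_eq, ← h]
    norm_num
  have h2 : 0 < Real.sqrt Real.pi := Real.sqrt_pos.2 Real.pi_pos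
  unfold kap
  rw [h1, pow_one]
  field_simp

theorem kap4 : kap 4 = Real.pi ^ 2 / 2 := by
  have h1 := kap_succ2 0
  have h2 := kap_succ2 2
  norm_num at h1 h2
  rw [h2, h1, kap_zero]
  ring

theorem kap6 : kap 6 = Real.pi ^ 3 / 6 := by
  have h2 := kap_succ2 4
  norm_num at h2
  rw [h2, kap4]
  ring

theorem kap5 : kap 5 = 8 * Real.pi ^ 2 / 15 := by
  have h1 := kap_succ2 1
  have h2 := kap_succ2 3
  norm_num at h1 h2
  rw [h2, h1, kap_one]
  ring

theorem kap7 : kap 7 = 16 * Real.pi ^ 3 / 105 := by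
  have h2 := kap_succ2 5
  norm_num at h2
  rw [h2, kap5]
  ring

/-- `(1 + y) / (1 - y) ≤ exp (2 y + y³)` -/
theorem ratio_le {y : ℝ} (h0 : 0 ≤ y) (h1 : y ≤ 1 / 4) :
    (1 + y) / (1 - y) ≤ Real.exp (2 * y + y ^ 3) := by
  have ht : 0 ≤ 2 * y + y ^ 3 := by positivity
  have h := Real.sum_le_exp_of_nonneg ht 4
  simp only [Finset.sum_range_succ, Finset.sum_range_zero] at h
  refine le_trans ?_ h
  rw [div_le_iff₀ (by linarith)]
  norm_num [Nat.factorial]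
  have h2 : 0 ≤ y ^ 3 * (1 - y) := mul_nonneg (by positivity) (by linarith)
  have h3 : 0 ≤ y ^ 6 := by positivity
  have h4 : 0 ≤ y ^ 3 * (1 / 4 - y) := mul_nonneg (by positivity) (by linarith)
  have h5 : 0 ≤ y ^ 6 * (1 / 4 - y) := mul_nonneg (by positivity) (by linarith)
  have h6 : 0 ≤ y ^ 5 * (1 / 4 - y) := mul_nonneg (by positivity) (by linarith)
  have h7 : 0 ≤ y ^ 4 * (1 / 4 - y) := mul_nonneg (by positivity) (by linarith)
  have h8 : 0 ≤ y ^ 9 * (1 - y) := mul_nonneg (by positivity) (by linarith)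
  have h9 : 0 ≤ y ^ 7 * (1 - y) := mul_nonneg (by positivity) (by linarith)
  have h10 : 0 ≤ y ^ 3 := by positivity
  have h11 : 0 ≤ y ^ 7 := by positivity
  nlinarith

theorem RR_succ2 (p : ℕ) :
    RR (p + 2) = RR p * (((((p : ℝ) + 3) / (p + 1)) ^ (p + 3)) / (4 * Real.pi ^ 2)) := by
  have hk := (kap_pos p).ne'
  have hpi := Real.pi_pos.ne'
  have hf : ((p.factorial : ℕ) : ℝ) ≠ 0 := by positivity
  have h1 : (p : ℝ) + 1 ≠ 0 := by positivity
  have h2 : (p : ℝ) + 2 ≠ 0 := by positivity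
  unfold RR
  rw [kap_succ2, Nat.factorial_succ, Nat.factorial_succ, div_pow]
  push_cast
  have e1 : (p : ℝ) + 1 + 1 = p + 2 := by ring
  have e2 : (p : ℝ) + 2 + 1 = p + 3 := by ring
  rw [e1, e2]
  have e3 : ((p : ℝ) + 1) ^ (p + 3) = (p + 1) ^ (p + 1) * (p + 1) ^ 2 := by
    rw [← pow_add]
  rw [e3]
  field_simp
  ring

theorem step2 {p : ℕ} (hp : 2 ≤ p) {y : ℝ} (hy : y = 1 / ((p : ℝ) + 2)) :
    ((((p : ℝ) + 3) / (p + 1)) ^ (p + 3)) ≤ Real.exp (2 + 2 * y + y ^ 2 + y ^ 3) := by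
  have hp' : (2 : ℝ) ≤ p := by exact_mod_cast hp
  have h0 : 0 ≤ y := by rw [hy]; positivity
  have h1 : y ≤ 1 / 4 := by
    rw [hy]
    exact one_div_le_one_div_of_le (by norm_num) (by linarith)
  have h2 := ratio_le h0 h1
  have h3 : (1 + y) / (1 - y) = ((p : ℝ) + 3) / (p + 1) := by
    rw [hy]
    have : (p : ℝ) + 2 ≠ 0 := by positivity
    have h4 : (p : ℝ) + 1 ≠ 0 := by positivity
    have h5 : 1 - 1 / ((p : ℝ) + 2) = (p + 1) / (p + 2) := by field_simp; ring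
    have h6 : 1 + 1 / ((p : ℝ) + 2) = (p + 3) / (p + 2) := by field_simp; ring
    rw [h5, h6]
    field_simp
  rw [h3] at h2
  have h4 := pow_le_pow_left₀ (by positivity) h2 (p + 3)
  refine h4.trans (le_of_eq ?_)
  rw [← Real.exp_nat_mul]
  congr 1
  push_cast
  have h5 : (p : ℝ) + 3 = 1 / y + 1 := by
    rw [hy]
    field_simp
    ring
  have h6 : y ≠ 0 := by rw [hy]; positivity
  rw [h5]
  field_simp
  ring

theorem exp3_le : Real.exp 3 ≤ 20.08554 := by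
  have h := Real.exp_one_lt_d9
  have e : Real.exp 3 = Real.exp 1 ^ 3 := by
    rw [← Real.exp_nat_mul]; norm_num
  rw [e]
  have h0 := Real.exp_pos 1
  calc Real.exp 1 ^ 3 ≤ 2.7182818286 ^ 3 := pow_le_pow_left₀ h0.le h.le 3
    _ ≤ 20.08554 := by norm_num

theorem exp_small {x c : ℝ} (h0 : 0 ≤ x) (h1 : x ≤ 1)
    (h : 1 + x + x ^ 2 / 2 + x ^ 3 / 6 + x ^ 4 / 24 + x ^ 5 / 120 + x ^ 6 * (7 / 4320) ≤ c) :
    Real.exp x ≤ c := by
  have h2 := Real.exp_bound' h0 h1 (n := 6) (by norm_num)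
  simp only [Finset.sum_range_succ, Finset.sum_range_zero] at h2
  refine h2.trans (le_trans (le_of_eq ?_) h)
  norm_num [Nat.factorial]
  ring

theorem pi_sq_ge : (9.86958 : ℝ) ≤ Real.pi ^ 2 := by
  have h := Real.pi_gt_d6
  nlinarith

theorem exp_367 : Real.exp 3.668 ≤ 4 * Real.pi ^ 2 := by
  have h1 : Real.exp 3.668 = Real.exp 3 * Real.exp 0.668 := by
    rw [← Real.exp_add]; norm_num
  have h2 : Real.exp 0.668 ≤ 1.951 := exp_small (by norm_num) (by norm_num) (by norm_num)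
  have h3 := exp3_le
  have h4 := pi_sq_ge
  rw [h1]
  have h5 : Real.exp 3 * Real.exp 0.668 ≤ 20.08554 * 1.951 :=
    mul_le_mul h3 h2 (Real.exp_pos _).le (by norm_num)
  linarith [show (20.08554 : ℝ) * 1.951 ≤ 4 * 9.86958 by norm_num]

/-- for one large block: `e^(7 (2p - 3) / 20) R(p)` decreases in steps of two from `p = 6` on -/
theorem one_step {p : ℕ} (hp : 6 ≤ p) (h : Real.exp (7 / 20 * (2 * p - 4)) * RR p < 1) :
    Real.exp (7 / 20 * (2 * ((p + 2 : ℕ) : ℝ) - 4)) * RR (p + 2) < 1 := by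
  have hp' : (6 : ℝ) ≤ p := by exact_mod_cast hp
  set y : ℝ := 1 / ((p : ℝ) + 2) with hy
  have h0 : 0 ≤ y := by rw [hy]; positivity
  have h1 : y ≤ 1 / 8 := by
    rw [hy]
    exact one_div_le_one_div_of_le (by norm_num) (by linarith)
  have h2 := step2 (by omega : 2 ≤ p) hy
  have hpi : 0 < 4 * Real.pi ^ 2 := by have := Real.pi_pos; positivity
  have h3 : Real.exp (7 / 5) * Real.exp (2 + 2 * y + y ^ 2 + y ^ 3) ≤ 4 * Real.pi ^ 2 := by
    rw [← Real.exp_add]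
    refine (Real.exp_le_exp.2 ?_).trans exp_367
    have h4 : y ^ 2 ≤ (1 / 8) ^ 2 := pow_le_pow_left₀ h0 h1 2
    have h5 : y ^ 3 ≤ (1 / 8) ^ 3 := pow_le_pow_left₀ h0 h1 3
    norm_num at h4 h5 ⊢
    linarith
  rw [RR_succ2]
  have h4 : Real.exp (7 / 20 * (2 * ((p + 2 : ℕ) : ℝ) - 4)) =
      Real.exp (7 / 20 * (2 * p - 4)) * Real.exp (7 / 5) := by
    rw [← Real.exp_add]
    congr 1
    push_cast
    ring
  rw [h4]
  have h5 : Real.exp (7 / 5) * ((((p : ℝ) + 3) / (p + 1)) ^ (p + 3)) / (4 * Real.pi ^ 2) ≤ 1 := by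
    rw [div_le_one hpi]
    exact (mul_le_mul_of_nonneg_left h2 (Real.exp_pos _).le).trans h3
  have h6 := RR_pos p
  calc Real.exp (7 / 20 * (2 * p - 4)) * Real.exp (7 / 5) *
        (RR p * (((((p : ℝ) + 3) / (p + 1)) ^ (p + 3)) / (4 * Real.pi ^ 2)))
      = Real.exp (7 / 20 * (2 * p - 4)) * RR p *
        (Real.exp (7 / 5) * ((((p : ℝ) + 3) / (p + 1)) ^ (p + 3)) / (4 * Real.pi ^ 2)) := by ring
    _ ≤ Real.exp (7 / 20 * (2 * p - 4)) * RR p * 1 :=
        mul_le_mul_of_nonneg_left h5 (by positivity)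
    _ < 1 := by rw [mul_one]; exact h

theorem one5 : Real.exp (7 / 20 * (2 * ((5 : ℕ) : ℝ) - 4)) * RR 5 < 1 := by
  have h1 : Real.exp (7 / 20 * (2 * ((5 : ℕ) : ℝ) - 4)) = Real.exp 3 * Real.exp (-0.9) := by
    rw [← Real.exp_add]; norm_num
  have h2 : RR 5 = 11.390625 / (Real.pi ^ 2) ^ 2 := by
    unfold RR
    rw [kap5]
    have := Real.pi_pos.ne'
    norm_num [Nat.factorial]
    field_simp
    norm_num
  have h3 : Real.exp (-0.9) ≤ 0.42 := by
    rw [Real.exp_neg, inv_le_comm₀ (Real.exp_pos _) (by norm_num)]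
    have := Real.sum_le_exp_of_nonneg (x := 0.9) (by norm_num) 5
    simp only [Finset.sum_range_succ, Finset.sum_range_zero] at this
    norm_num [Nat.factorial] at this ⊢
    linarith
  have h4 := pi_sq_ge
  have h5 := exp3_le
  rw [h1, h2, ← mul_div_assoc, div_lt_one (by positivity)]
  have h6 : Real.exp 3 * Real.exp (-0.9) ≤ 20.08554 * 0.42 :=
    mul_le_mul h5 h3 (Real.exp_pos _).le (by norm_num)
  have h7 : (9.86958 : ℝ) ^ 2 ≤ (Real.pi ^ 2) ^ 2 := pow_le_pow_left₀ (by norm_num) h4 2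
  norm_num at h6 h7 ⊢
  linarith

theorem one6 : Real.exp (7 / 20 * (2 * ((6 : ℕ) : ℝ) - 4)) * RR 6 < 1 := by
  have h1 : Real.exp (7 / 20 * (2 * ((6 : ℕ) : ℝ) - 4)) = Real.exp 3 * Real.exp (-0.2) := by
    rw [← Real.exp_add]; norm_num
  have h2 : RR 6 = 823543 / (14400 * (Real.pi ^ 2) ^ 3) := by
    unfold RR
    rw [kap6]
    have := Real.pi_pos.ne'
    norm_num [Nat.factorial]
    field_simp
    norm_num
  have h3 : Real.exp (-0.2) ≤ 0.8188 := by
    rw [Real.exp_neg, inv_le_comm₀ (Real.exp_pos _) (by norm_num)]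
    have := Real.sum_le_exp_of_nonneg (x := 0.2) (by norm_num) 5
    simp only [Finset.sum_range_succ, Finset.sum_range_zero] at this
    norm_num [Nat.factorial] at this ⊢
    linarith
  have h4 := pi_sq_ge
  have h5 := exp3_le
  rw [h1, h2, ← mul_div_assoc, div_lt_one (by positivity)]
  have h6 : Real.exp 3 * Real.exp (-0.2) ≤ 20.08554 * 0.8188 :=
    mul_le_mul h5 h3 (Real.exp_pos _).le (by norm_num)
  have h7 : (9.86958 : ℝ) ^ 3 ≤ (Real.pi ^ 2) ^ 3 := pow_le_pow_left₀ (by norm_num) h4 3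
  norm_num at h6 h7 ⊢
  linarith

theorem one7 : Real.exp (7 / 20 * (2 * ((7 : ℕ) : ℝ) - 4)) * RR 7 < 1 := by
  have h1 : Real.exp (7 / 20 * (2 * ((7 : ℕ) : ℝ) - 4)) = Real.exp 3 * Real.exp 0.5 := by
    rw [← Real.exp_add]; norm_num
  have h2 : RR 7 = 16777216 / (589824 * (Real.pi ^ 2) ^ 3) := by
    unfold RR
    rw [kap7]
    have := Real.pi_pos.ne'
    norm_num [Nat.factorial]
    field_simp
    norm_num
  have h3 : Real.exp 0.5 ≤ 1.6488 := exp_small (by norm_num) (by norm_num) (by norm_num)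
  have h4 := pi_sq_ge
  have h5 := exp3_le
  rw [h1, h2, ← mul_div_assoc, div_lt_one (by positivity)]
  have h6 : Real.exp 3 * Real.exp 0.5 ≤ 20.08554 * 1.6488 :=
    mul_le_mul h5 h3 (Real.exp_pos _).le (by norm_num)
  have h7 : (9.86958 : ℝ) ^ 3 ≤ (Real.pi ^ 2) ^ 3 := pow_le_pow_left₀ (by norm_num) h4 3
  norm_num at h6 h7 ⊢
  linarith

/-- one block of size `p ≥ 5`, `n + 5 ≤ 2 p` -/
theorem one_block {p : ℕ} (hp : 5 ≤ p) : Real.exp (7 / 20 * (2 * p - 4)) * RR p < 1 := by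
  have key : ∀ p : ℕ, 6 ≤ p → Real.exp (7 / 20 * (2 * (p : ℝ) - 4)) * RR p < 1 ∧
      Real.exp (7 / 20 * (2 * ((p + 1 : ℕ) : ℝ) - 4)) * RR (p + 1) < 1 := by
    intro p hp
    induction p, hp using Nat.le_induction with
    | base => exact ⟨one6, one7⟩
    | succ p hp ih => exact ⟨ih.2, one_step hp ih.1⟩
  rcases hp.eq_or_lt with h | h
  · rw [← h]
    exact one5
  · exact (key p h).1

theorem four_step {p : ℕ} (hp : 4 ≤ p) (h : RR p ≤ Real.exp (-(3 / 8 * p))) :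
    RR (p + 2) ≤ Real.exp (-(3 / 8 * ((p + 2 : ℕ) : ℝ))) := by
  have hp' : (4 : ℝ) ≤ p := by exact_mod_cast hp
  set y : ℝ := 1 / ((p : ℝ) + 2) with hy
  have h0 : 0 ≤ y := by rw [hy]; positivity
  have h1 : y ≤ 1 / 6 := by
    rw [hy]
    exact one_div_le_one_div_of_le (by norm_num) (by linarith)
  have h2 := step2 (by omega : 2 ≤ p) hy
  have hpi : 0 < 4 * Real.pi ^ 2 := by have := Real.pi_pos; positivity
  have h3 : Real.exp (3 / 4) * Real.exp (2 + 2 * y + y ^ 2 + y ^ 3) ≤ 4 * Real.pi ^ 2 := by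
    rw [← Real.exp_add]
    refine (Real.exp_le_exp.2 ?_).trans exp_367
    have h4 : y ^ 2 ≤ (1 / 6) ^ 2 := pow_le_pow_left₀ h0 h1 2
    have h5 : y ^ 3 ≤ (1 / 6) ^ 3 := pow_le_pow_left₀ h0 h1 3
    norm_num at h4 h5 ⊢
    linarith
  rw [RR_succ2]
  have h4 : Real.exp (-(3 / 8 * ((p + 2 : ℕ) : ℝ))) =
      Real.exp (-(3 / 8 * p)) * Real.exp (-(3 / 4)) := by
    rw [← Real.exp_add]
    congr 1
    push_cast
    ring
  rw [h4]
  refine mul_le_mul h ?_ (by positivity) (Real.exp_pos _).le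
  rw [div_le_iff₀ hpi, Real.exp_neg, inv_mul_eq_div, le_div_iff₀ (Real.exp_pos _), mul_comm]
  exact (mul_le_mul_of_nonneg_left h2 (Real.exp_pos _).le).trans h3

theorem four4 : RR 4 ≤ Real.exp (-(3 / 8 * ((4 : ℕ) : ℝ))) := by
  have h2 : RR 4 = 3125 / (144 * (Real.pi ^ 2) ^ 2) := by
    unfold RR
    rw [kap4]
    have := Real.pi_pos.ne'
    norm_num [Nat.factorial]
    field_simp
    norm_num
  have h3 : Real.exp 1.5 ≤ 4.4818 := by
    have h4 : Real.exp 1.5 ^ 2 = Real.exp 3 := by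
      rw [← Real.exp_nat_mul]; norm_num
    have h5 := exp3_le
    by_contra h6
    push Not at h6
    have h7 : (4.4818 : ℝ) ^ 2 < Real.exp 1.5 ^ 2 := pow_lt_pow_left₀ h6 (by norm_num) two_ne_zero
    rw [h4] at h7
    norm_num at h7 h5
    linarith
  have h1 : Real.exp (-(3 / 8 * ((4 : ℕ) : ℝ))) = (Real.exp 1.5)⁻¹ := by
    rw [← Real.exp_neg]; norm_num
  have h4 := pi_sq_ge
  have h7 : (9.86958 : ℝ) ^ 2 ≤ (Real.pi ^ 2) ^ 2 := pow_le_pow_left₀ (by norm_num) h4 2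
  rw [h1, h2, div_le_iff₀ (by positivity), inv_mul_eq_div, le_div_iff₀ (Real.exp_pos _)]
  norm_num at h3 h7 ⊢
  linarith

theorem four5 : RR 5 ≤ Real.exp (-(3 / 8 * ((5 : ℕ) : ℝ))) := by
  have h2 : RR 5 = 11.390625 / (Real.pi ^ 2) ^ 2 := by
    unfold RR
    rw [kap5]
    have := Real.pi_pos.ne'
    norm_num [Nat.factorial]
    field_simp
    norm_num
  have h3 : Real.exp 1.875 ≤ 8 := by
    have h := Real.exp_one_lt_d9
    have e : Real.exp 2 = Real.exp 1 ^ 2 := by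
      rw [← Real.exp_nat_mul]; norm_num
    refine (Real.exp_le_exp.2 (by norm_num : (1.875 : ℝ) ≤ 2)).trans ?_
    rw [e]
    have h0 := Real.exp_pos 1
    calc Real.exp 1 ^ 2 ≤ 2.7182818286 ^ 2 := pow_le_pow_left₀ h0.le h.le 2
      _ ≤ 8 := by norm_num
  have h1 : Real.exp (-(3 / 8 * ((5 : ℕ) : ℝ))) = (Real.exp 1.875)⁻¹ := by
    rw [← Real.exp_neg]; norm_num
  have h4 := pi_sq_ge
  have h7 : (9.86958 : ℝ) ^ 2 ≤ (Real.pi ^ 2) ^ 2 := pow_le_pow_left₀ (by norm_num) h4 2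
  rw [h1, h2, div_le_iff₀ (by positivity), inv_mul_eq_div, le_div_iff₀ (Real.exp_pos _)]
  norm_num at h3 h7 ⊢
  linarith

/-- blocks of size at least four -/
theorem four_block {p : ℕ} (hp : 4 ≤ p) : RR p ≤ Real.exp (-(3 / 8 * p)) := by
  have key : ∀ p : ℕ, 4 ≤ p → RR p ≤ Real.exp (-(3 / 8 * p)) ∧
      RR (p + 1) ≤ Real.exp (-(3 / 8 * ((p + 1 : ℕ) : ℝ))) := by
    intro p hp
    induction p, hp using Nat.le_induction with
    | base => exact ⟨four4, four5⟩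
    | succ p hp ih => exact ⟨ih.2, four_step hp ih.1⟩
  exact (key p hp).1

end Vale.Agent.P254.H242
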