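import Vale.Agent.P254.H242.W175
import Vale.Agent.P254.Bdl.B19
import Vale.Agent.P254.Bdl.B20

/-!
P254: near-sharp slicing with the loss `δ = 7/40`.
-/

open MeasureTheory Set Matrix

namespace Vale.Agent.P254.H242

open FV

theorem stmtNice : X.Top.StmtNice :=
  S5.N710.stmtNice_of (X.Chain.stmtStatic_of_sc
    (Vale.Agent.P227.M.HL.stmtSC_of_heat Vale.Agent.P227.M.SC.stmtHeat))

theorem niceDDL (n : ℕ) : X.Loss.NiceDDL (7 / 40) n := (X.Top.niceFrL wp stmtNice n).niceDDL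

/-- near-sharp slicing -/
theorem near_sharp {n : ℕ} (hn : 1 ≤ n) {K S : Set (Fin n → ℝ)} (hK : IsConvexBody K)
    (hS : IsSimplex S) :
    isoConst K ≤ Real.exp (7 / 40 * (((n : ℝ) + 1) / n)) * isoConst S ∧
      isoConst K ≤ Real.exp (-(33 / 40)) := by
  refine ⟨?_, ?_⟩
  · have h1 := X.Top.isoConst_le wp stmtNice hn hK hS
    rwa [mul_div_assoc] at h1
  · have h1 := X.Top.isoConst_le_abs wp stmtNice hn hK
    have e : (7 / 40 - 1 : ℝ) = -(33 / 40) := by norm_num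
    rwa [e] at h1

theorem isoConst_pow_eq {n : ℕ} (hn : 1 ≤ n) {K : Set (Fin n → ℝ)} (hK : IsConvexBody K) :
    isoConst K ^ (2 * n) = Dn K := isoConst_pow hn (Dn_nonneg hK) rfl

/-- near-sharp slicing for the normalised determinant -/
theorem Dn_near_sharp {n : ℕ} (hn : 1 ≤ n) {K : Set (Fin n → ℝ)} (hK : IsConvexBody K) :
    Dn K ≤ Real.exp (7 / 20 * ((n : ℝ) + 1)) * simpC n := by
  have h1 := (near_sharp hn hK isSimplex_stdS).1
  have hS : IsConvexBody (stdS n) := body_of_vol convex_stdS isCompact_stdS volume_stdS_pos.ne'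
  have h0 : 0 ≤ isoConst K := by
    rw [isoConst_eq]
    exact Real.rpow_nonneg (Dn_nonneg hK) _
  have h2 := pow_le_pow_left₀ h0 h1 (2 * n)
  rw [mul_pow, isoConst_pow_eq hn hK, isoConst_pow_eq hn hS, Dn_stdS hn, ← Real.exp_nat_mul] at h2
  have e : ((2 * n : ℕ) : ℝ) * (7 / 40 * (((n : ℝ) + 1) / n)) = 7 / 20 * ((n : ℝ) + 1) := by
    have : (n : ℝ) ≠ 0 := by positivity
    push_cast
    field_simp
    ring
  rwa [e] at h2

end Vale.Agent.P254.H242
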