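import Mathlib.Analysis.SpecialFunctions.Gamma.Basic
import Mathlib.MeasureTheory.Integral.IntegralEqImproper
import Mathlib.MeasureTheory.Integral.Gamma

/-!
P254: an inequality of Borell for the moments of a log-concave function on the half-line.
-/

open MeasureTheory Set

namespace Vale.Agent.P254.H242

theorem int_exp (j : ℕ) {l : ℝ} (hl : 0 < l) :
    ∫ r in Ioi (0 : ℝ), r ^ j * Real.exp (-(l * r)) = j.factorial / l ^ (j + 1) := by
  have h := Real.integral_rpow_mul_exp_neg_mul_Ioi (a := (j : ℝ) + 1) (r := l) (by positivity) hl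
  have e : ∀ r : ℝ, r ^ ((j : ℝ) + 1 - 1) * Real.exp (-(l * r)) = r ^ j * Real.exp (-(l * r)) := by
    intro r
    rw [add_sub_cancel_right, Real.rpow_natCast]
  simp_rw [e] at h
  rw [h, Real.Gamma_nat_eq_factorial, ← Nat.cast_succ, Real.rpow_natCast, one_div, inv_pow]
  field_simp

theorem intg_exp (j : ℕ) {l : ℝ} (hl : 0 < l) :
    IntegrableOn (fun r : ℝ => r ^ j * Real.exp (-(l * r))) (Ioi 0) := by
  by_contra h
  have h1 := int_exp j hl
  rw [integral_undef h] at h1
  have : (0 : ℝ) < j.factorial / l ^ (j + 1) := by positivity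
  linarith

/-- log-concave functions on the half-line with bounded support -/
structure LC1 (g : ℝ → ℝ) (R B : ℝ) : Prop where
  nonneg : ∀ r, 0 ≤ g r
  supp : ∀ r, R < r → g r = 0
  bdd : ∀ r, 0 < r → g r ≤ B
  meas : Measurable g
  lc : ∀ r s t, 0 < r → 0 < s → 0 < t → t < 1 →
    g r ^ (1 - t) * g s ^ t ≤ g ((1 - t) * r + t * s)

/-- the moments -/
noncomputable def Nm (g : ℝ → ℝ) (j : ℕ) : ℝ := ∫ r in Ioi (0 : ℝ), r ^ j * g r

variable {g : ℝ → ℝ} {R B : ℝ}

theorem LC1.intg (h : LC1 g R B) (j : ℕ) : IntegrableOn (fun r => r ^ j * g r) (Ioi (0 : ℝ)) := by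
  have h1 : IntegrableOn (fun r => r ^ j * g r) (Ioc (0 : ℝ) (max R 0)) := by
    refine Measure.integrableOn_of_bounded (M := (max R 0) ^ j * B) (by simp)
      ((measurable_id.pow_const j).mul h.meas).aestronglyMeasurable ?_
    filter_upwards [ae_restrict_mem measurableSet_Ioc] with r hr
    rw [Real.norm_eq_abs, abs_of_nonneg (mul_nonneg (pow_nonneg hr.1.le j) (h.nonneg r))]
    exact mul_le_mul (pow_le_pow_left₀ hr.1.le hr.2 j) (h.bdd r hr.1) (h.nonneg r)
      (pow_nonneg (le_max_right _ _) j)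
  have h2 : IntegrableOn (fun r => r ^ j * g r) (Ioi (max R 0)) := by
    refine (integrableOn_zero (s := Ioi (max R 0))).congr_fun (fun r hr => ?_) measurableSet_Ioi
    have : R < r := lt_of_le_of_lt (le_max_left _ _) hr
    simp [h.supp r this]
  have h3 := h1.union h2
  rwa [Ioc_union_Ioi_eq_Ioi (le_max_right _ _)] at h3

theorem LC1.conv (h : LC1 g R B) {c l : ℝ} (hc : 0 < c) {r s x : ℝ} (hr0 : 0 < r) (hrx : r < x)
    (hxs : x < s) (hr : c * Real.exp (-(l * r)) ≤ g r) (hs : c * Real.exp (-(l * s)) ≤ g s) :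
    c * Real.exp (-(l * x)) ≤ g x := by
  set t : ℝ := (x - r) / (s - r) with ht
  have hsr : 0 < s - r := by linarith
  have ht0 : 0 < t := div_pos (by linarith) hsr
  have ht1 : t < 1 := by rw [ht, div_lt_one hsr]; linarith
  have hx : (1 - t) * r + t * s = x := by
    rw [ht]
    field_simp
    ring
  have h1 := h.lc r s t hr0 (by linarith) ht0 ht1
  rw [hx] at h1
  refine le_trans ?_ h1
  have e1 : c * Real.exp (-(l * x)) =
      (c * Real.exp (-(l * r))) ^ (1 - t) * (c * Real.exp (-(l * s))) ^ t := by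
    rw [Real.mul_rpow hc.le (Real.exp_pos _).le, Real.mul_rpow hc.le (Real.exp_pos _).le,
      ← Real.exp_mul, ← Real.exp_mul]
    have e2 : c ^ (1 - t) * Real.exp (-(l * r) * (1 - t)) * (c ^ t * Real.exp (-(l * s) * t)) =
        (c ^ (1 - t) * c ^ t) * (Real.exp (-(l * r) * (1 - t)) * Real.exp (-(l * s) * t)) := by ring
    rw [e2, ← Real.rpow_add hc, ← Real.exp_add, sub_add_cancel, Real.rpow_one]
    congr 2
    rw [← hx]
    ring
  rw [e1]
  exact mul_le_mul (Real.rpow_le_rpow (by positivity) hr (by linarith))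
    (Real.rpow_le_rpow (by positivity) hs ht0.le) (by positivity)
    (Real.rpow_nonneg (h.nonneg r) _)

/-- the crossing argument -/
theorem LC1.cross (h : LC1 g R B) {c l : ℝ} (hc : 0 < c) (hl : 0 < l) (a : ℕ)
    (h0 : Nm g a = c * (a.factorial / l ^ (a + 1)))
    (h3 : Nm g (a + 3) = c * ((a + 3).factorial / l ^ (a + 3 + 1))) :
    c * ((a + 1).factorial / l ^ (a + 1 + 1)) ≤ Nm g (a + 1) := by
  set D : ℝ → ℝ := fun r => g r - c * Real.exp (-(l * r)) with hD
  have hi : ∀ j, IntegrableOn (fun r => r ^ j * D r) (Ioi (0 : ℝ)) := by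
    intro j
    have h1 := (h.intg j).sub ((intg_exp j hl).const_mul c)
    refine h1.congr_fun (fun r _ => ?_) measurableSet_Ioi
    simp only [hD, Pi.sub_apply]
    ring
  have hv : ∀ j, ∫ r in Ioi (0 : ℝ), r ^ j * D r = Nm g j - c * (j.factorial / l ^ (j + 1)) := by
    intro j
    rw [Nm, ← int_exp j hl, ← integral_const_mul, ← integral_sub (h.intg j)
      ((intg_exp j hl).const_mul c)]
    refine integral_congr_ae (Filter.Eventually.of_forall fun r => ?_)
    simp only [hD]
    ring
  set I : Set ℝ := {r | 0 < r ∧ c * Real.exp (-(l * r)) ≤ g r} with hI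
  have hIR : ∀ r ∈ I, r ≤ R := by
    rintro r ⟨_, h2⟩
    by_contra h4
    rw [h.supp r (not_le.1 h4)] at h2
    have : 0 < c * Real.exp (-(l * r)) := by positivity
    linarith
  have hne : I.Nonempty := by
    by_contra hne
    rw [not_nonempty_iff_eq_empty] at hne
    have hneg : ∀ r ∈ Ioi (0 : ℝ), r ^ a * D r < 0 := by
      intro r hr
      have h4 : r ∉ I := by rw [hne]; exact notMem_empty r
      have h5 : g r < c * Real.exp (-(l * r)) := by
        by_contra h6
        exact h4 ⟨hr, not_lt.1 h6⟩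
      exact mul_neg_of_pos_of_neg (pow_pos hr a) (by simp only [hD]; linarith)
    have h4 := hv a
    rw [h0, sub_self] at h4
    have h5 : ∫ r in Ioi (0 : ℝ), -(r ^ a * D r) = 0 := by rw [integral_neg, h4, neg_zero]
    have h6 := (setIntegral_eq_zero_iff_of_nonneg_ae
      (by
        filter_upwards [ae_restrict_mem measurableSet_Ioi] with r hr
        have := hneg r hr
        show 0 ≤ -(r ^ a * D r)
        linarith) (hi a).neg).1 h5
    have h7 : ∀ᵐ r ∂(volume.restrict (Ioi (0 : ℝ))), False := by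
      filter_upwards [h6, ae_restrict_mem measurableSet_Ioi] with r hr1 hr2
      have := hneg r hr2
      change -(r ^ a * D r) = 0 at hr1
      linarith
    rw [Filter.eventually_false_iff_eq_bot, ae_eq_bot] at h7
    have h8 : (volume.restrict (Ioi (0 : ℝ))) (univ : Set ℝ) = 0 := by rw [h7]; simp
    rw [Measure.restrict_apply_univ, Real.volume_Ioi] at h8
    exact ENNReal.top_ne_zero h8
  have hbb : BddBelow I := ⟨0, fun r hr => hr.1.le⟩
  have hba : BddAbove I := ⟨R, hIR⟩
  set x1 : ℝ := sInf I with hx1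
  set x2 : ℝ := sSup I with hx2
  have h10 : 0 ≤ x1 := le_csInf hne fun r hr => hr.1.le
  have h20 : 0 < x2 := by
    obtain ⟨r, hr⟩ := hne
    exact hr.1.trans_le (le_csSup hba hr)
  have hsign : ∀ r, 0 < r → 0 ≤ ((r - x1) * (x2 - r) * (r + x1 + x2)) * D r := by
    intro r hr
    have hs : 0 < r + x1 + x2 := by linarith
    rcases lt_trichotomy r x1 with h4 | h4 | h4
    · have h5 : r ∉ I := fun h6 => absurd (csInf_le hbb h6) (not_le.2 h4)
      have h6 : D r < 0 := by
        simp only [hD]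
        by_contra h7
        exact h5 ⟨hr, by linarith [not_lt.1 h7]⟩
      have h7 : r < x2 := by
        obtain ⟨s, hs⟩ := hne
        exact h4.trans_le ((csInf_le hbb hs).trans (le_csSup hba hs))
      have h8 : (r - x1) * (x2 - r) * (r + x1 + x2) < 0 :=
        mul_neg_of_neg_of_pos (mul_neg_of_neg_of_pos (by linarith) (by linarith)) hs
      exact (mul_pos_of_neg_of_neg h8 h6).le
    · rw [h4, sub_self, zero_mul, zero_mul, zero_mul]
    · rcases lt_trichotomy r x2 with h5 | h5 | h5
      · obtain ⟨s1, hs1, hs1'⟩ := exists_lt_of_csInf_lt hne h4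
        obtain ⟨s2, hs2, hs2'⟩ := exists_lt_of_lt_csSup hne h5
        have h6 := h.conv hc hs1.1 hs1' hs2' hs1.2 hs2.2
        have h7 : 0 ≤ D r := by simp only [hD]; linarith
        exact mul_nonneg (mul_nonneg (mul_nonneg (by linarith) (by linarith)) hs.le) h7
      · rw [h5, sub_self, mul_zero, zero_mul, zero_mul]
      · have h6 : r ∉ I := fun h7 => absurd (le_csSup hba h7) (not_le.2 h5)
        have h7 : D r < 0 := by
          simp only [hD]
          by_contra h8
          exact h6 ⟨hr, by linarith [not_lt.1 h8]⟩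
        have h8 : (r - x1) * (x2 - r) * (r + x1 + x2) < 0 :=
          mul_neg_of_neg_of_pos (mul_neg_of_pos_of_neg (by linarith) (by linarith)) hs
        exact (mul_pos_of_neg_of_neg h8 h7).le
  have hint : 0 ≤ ∫ r in Ioi (0 : ℝ), r ^ a * (((r - x1) * (x2 - r) * (r + x1 + x2)) * D r) :=
    setIntegral_nonneg measurableSet_Ioi fun r hr => mul_nonneg (pow_nonneg (le_of_lt hr) a)
      (hsign r hr)
  have e : ∫ r in Ioi (0 : ℝ), r ^ a * (((r - x1) * (x2 - r) * (r + x1 + x2)) * D r) =
      (x1 ^ 2 + x1 * x2 + x2 ^ 2) * (∫ r in Ioi (0 : ℝ), r ^ (a + 1) * D r) -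
        (∫ r in Ioi (0 : ℝ), r ^ (a + 3) * D r) -
        x1 * x2 * (x1 + x2) * ∫ r in Ioi (0 : ℝ), r ^ a * D r := by
    have i1 := (hi (a + 1)).const_mul (x1 ^ 2 + x1 * x2 + x2 ^ 2)
    have i2 := hi (a + 3)
    have i3 := (hi a).const_mul (x1 * x2 * (x1 + x2))
    have s1 := integral_sub i1 i2
    have s2 := integral_sub (i1.sub i2) i3
    simp only [Pi.sub_apply] at s1 s2
    rw [s1, integral_const_mul, integral_const_mul] at s2
    rw [← s2]
    refine integral_congr_ae (Filter.Eventually.of_forall fun r => ?_)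
    simp only
    ring
  rw [e, hv (a + 3), hv a, h0, h3, sub_self, sub_self, mul_zero, sub_zero, sub_zero, hv (a + 1)]
    at hint
  have hpos : 0 < x1 ^ 2 + x1 * x2 + x2 ^ 2 := by positivity
  have := nonneg_of_mul_nonneg_right hint hpos
  linarith

/-- **Borell's inequality** for three moments -/
theorem LC1.borell (h : LC1 g R B) (a : ℕ) (h0 : 0 < Nm g a) (h3 : 0 < Nm g (a + 3)) :
    Nm g (a + 3) * Nm g a ^ 2 ≤
      Nm g (a + 1) ^ 3 * (((a : ℝ) + 2) * (a + 3) / ((a : ℝ) + 1) ^ 2) := by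
  have hf0 : (0 : ℝ) < a.factorial := by positivity
  have hf3 : (0 : ℝ) < (a + 3).factorial := by positivity
  set x : ℝ := Nm g a / a.factorial * ((a + 3).factorial / Nm g (a + 3)) with hx
  have hx0 : 0 < x := by positivity
  set l : ℝ := x ^ ((1 : ℝ) / 3) with hl
  have hl0 : 0 < l := Real.rpow_pos_of_pos hx0 _
  have hl3 : l ^ 3 = x := by
    rw [hl, ← Real.rpow_natCast, ← Real.rpow_mul hx0.le]
    norm_num
  set c : ℝ := Nm g a * l ^ (a + 1) / a.factorial with hc
  have hc0 : 0 < c := by positivity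
  have e0 : Nm g a = c * (a.factorial / l ^ (a + 1)) := by
    rw [hc]
    field_simp
  have e3 : Nm g (a + 3) = c * ((a + 3).factorial / l ^ (a + 3 + 1)) := by
    have e4 : l ^ (a + 3 + 1) = l ^ (a + 1) * x := by
      rw [← hl3]
      ring
    rw [hc, e4, hx]
    field_simp
  have key := h.cross hc0 hl0 a e0 e3
  have h5 := pow_le_pow_left₀ (by positivity) key 3
  have h6 : Nm g (a + 3) * Nm g a ^ 2 = (c * ((a + 1).factorial / l ^ (a + 1 + 1))) ^ 3 *
      (((a : ℝ) + 2) * (a + 3) / ((a : ℝ) + 1) ^ 2) := by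
    rw [e3]
    nth_rewrite 1 [e0]
    rw [Nat.factorial_succ (a + 2), Nat.factorial_succ (a + 1), Nat.factorial_succ a]
    push_cast
    field_simp
    ring
  rw [h6]
  exact mul_le_mul_of_nonneg_right h5 (by positivity)

end Vale.Agent.P254.H242
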