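import Vale.Agent.P254.CC.Defs

/-!
Bodies with rotational symmetry in some coordinates, and a larger class closed under many
operations.
-/

open MeasureTheory Set Matrix

namespace Vale.Agent.P254.H242

open CC

/-- `K ⊆ ℝⁿ` is invariant under the rotations of the coordinates `xᵢ`, `i ∈ T`, that is, under the
orthogonal maps which fix the coordinates `xᵢ`, `i ∉ T`. -/
def RotIn {n : ℕ} (T : Finset (Fin n)) (K : Set (Fin n → ℝ)) : Prop :=
  ∀ x ∈ K, ∀ y : Fin n → ℝ,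
    (∀ i, i ∉ T → y i = x i) → ∑ i ∈ T, y i ^ 2 = ∑ i ∈ T, x i ^ 2 → y ∈ K

/-- The volume `π^(p/2) / Γ(p/2 + 1)` of the Euclidean unit ball of `ℝᵖ`. -/
noncomputable def ballVol (p : ℕ) : ℝ := Real.sqrt Real.pi ^ p / Real.Gamma (p / 2 + 1)

/-- `(L_B / L_Δ)^(2p) = (p + 1)^(p + 1) / (p! |B|)²` for the Euclidean ball `B` and the simplex `Δ`
of dimension `p`. -/
noncomputable def ballRatio (p : ℕ) : ℝ :=
  ((p : ℝ) + 1) ^ (p + 1) / (p.factorial * ballVol p) ^ 2

/-- The direct product `K × L ⊆ ℝᵐ⁺ⁿ`. -/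
def prodBody {m n : ℕ} (K : Set (Fin m → ℝ)) (L : Set (Fin n → ℝ)) : Set (Fin (m + n) → ℝ) :=
  {z | (fun i => z (Fin.castAdd n i)) ∈ K ∧ (fun j => z (Fin.natAdd m j)) ∈ L}

/-- `K` is a convex body in `ℝ^q × ℝ^p` and every nonempty fibre `{x : (y, x) ∈ K}` of it is a
homothet `r U`, `r ≥ 0`, of the convex body `U ⊆ ℝ^p` with centroid `0`. -/
def Fibred {q p : ℕ} (U : Set (Fin p → ℝ)) (K : Set (Fin (q + p) → ℝ)) : Prop :=
  Body U ∧ (∀ j, cen U j = 0) ∧ Body K ∧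
    ∀ y : Fin q → ℝ, (∀ x, Fin.append y x ∉ K) ∨
      ∃ r : ℝ, 0 ≤ r ∧ ∀ x, Fin.append y x ∈ K ↔ ∃ u ∈ U, x = fun i => r * u i

/-- `L_Δ^(2n) = n!² / ((n + 1)^(n + 1) (n + 2)^n)` for the simplex `Δ` of dimension `n`. -/
noncomputable def simplexPow (n : ℕ) : ℝ :=
  (n.factorial : ℝ) ^ 2 / (((n : ℝ) + 1) ^ (n + 1) * ((n : ℝ) + 2) ^ n)

/-- `Cls2 n K`: the convex body `K ⊆ ℝⁿ` belongs to the smallest class of convex bodies, in all
dimensions `n ≥ 1`, which contains the class `CC.Cls` and the bodies (A)-(G) below and which is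
closed under the operations (1)-(4). -/
inductive Cls2 : (n : ℕ) → Set (Fin n → ℝ) → Prop
  /-- The class `CC.Cls`. -/
  | old {n : ℕ} {K : Set (Fin n → ℝ)} (h : Cls n K) : Cls2 n K
  /-- (A) Bodies with `n` affine hyperplane symmetries with linearly independent directions, or with
  `n - 1` such symmetries which form a connected graph. -/
  | affRefl {n m : ℕ} {K : Set (Fin n → ℝ)} {a w : Fin m → Fin n → ℝ} {c : Fin m → ℝ}
      (hn : 1 ≤ n) (hK : Body K) (ha : LinearIndependent ℝ a) (hw : ∀ i, w i ⬝ᵥ a i = 2)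
      (hR : ∀ i, ∀ x ∈ K, x - (w i ⬝ᵥ x - c i) • a i ∈ K)
      (hm : m = n ∨ (2 ≤ n ∧ m + 1 = n ∧
        ∀ i j, Relation.ReflTransGen (fun i j => w i ⬝ᵥ a j ≠ 0) i j)) : Cls2 n K
  /-- (B) Bodies filling the part `t` of a body `U` invariant under the rotations of several
  disjoint groups `T i` of coordinates, if `e^(7(n+1)/20) ∏ ballRatio |T i| < t^(n+2)`. -/
  | rot {n m : ℕ} {K U : Set (Fin n → ℝ)} {T : Fin m → Finset (Fin n)} {t : ℝ} (hn : 1 ≤ n)
      (hU : Body U) (hT : ∀ i j, i ≠ j → Disjoint (T i) (T j)) (hR : ∀ i, RotIn (T i) U)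
      (ht : 0 < t) (h : Real.exp (7 / 20 * (n + 1)) * ∏ i, ballRatio (T i).card < t ^ (n + 2))
      (hF : Fills t K U) : Cls2 n K
  /-- (C) Direct products of an arbitrary body of `ℝ^q`, `q ≥ 1`, and an unconditional body of
  `ℝ^p`, `p ≥ 5q + 6`. -/
  | prodUnc {q p : ℕ} {K : Set (Fin q → ℝ)} {U : Set (Fin p → ℝ)} (hq : 1 ≤ q)
      (hp : 5 * q + 6 ≤ p) (hK : Body K) (hU : SymIn Finset.univ U) : Cls2 (q + p) (prodBody K U)
  /-- (D) Free sums of an arbitrary body of `ℝ^q`, `q ≥ 1`, which contains the origin, and an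
  unconditional body of `ℝ^p`, `p ≥ 5q + 6`. -/
  | sumUnc {q p : ℕ} {K : Set (Fin q → ℝ)} {U : Set (Fin p → ℝ)} (hq : 1 ≤ q)
      (hp : 5 * q + 6 ≤ p) (hK : Body K) (hK0 : (fun _ => 0) ∈ K) (hU : SymIn Finset.univ U) :
      Cls2 (q + p) (freeSum K U)
  /-- (E) Bodies invariant under the rotations of one group `T` of coordinates, `3 |T| ≥ n + 13`. -/
  | rotOne {n : ℕ} {K : Set (Fin n → ℝ)} {T : Finset (Fin n)} (hn : n + 13 ≤ 3 * T.card)
      (hK : Body K) (hR : RotIn T K) : Cls2 n K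
  /-- (F) Bodies in `ℝ^q × ℝ^p`, `p ≥ 5q + 44`, whose fibres over `ℝ^q` are homothets of an
  unconditional body of `ℝ^p`. -/
  | fibUnc {q p : ℕ} {K : Set (Fin (q + p) → ℝ)} {U : Set (Fin p → ℝ)} (hp : 5 * q + 44 ≤ p)
      (hU : SymIn Finset.univ U) (hK : Fibred U K) : Cls2 (q + p) K
  /-- (G) Bodies filling the part `t` of a body in `ℝ^q × ℝ^p` whose fibres over `ℝ^q` are homothets
  of a body `U`, if `e^(3 - 33q/20) L_U^(2p) < t^(q + p + 2) L_Δ^(2(q + p))`. -/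
  | fib {q p : ℕ} {K V : Set (Fin (q + p) → ℝ)} {U : Set (Fin p → ℝ)} {t : ℝ} (hp : 2 ≤ p)
      (hV : Fibred U V) (ht : 0 < t) (h : Real.exp (3 - 33 / 20 * q) * iso U ^ (2 * p) <
        t ^ (q + p + 2) * simplexPow (q + p)) (hF : Fills t K V) : Cls2 (q + p) K
  /-- (1) Closure under invertible affine maps. -/
  | affine {n : ℕ} {K : Set (Fin n → ℝ)} {A : Matrix (Fin n) (Fin n) ℝ} {b : Fin n → ℝ}
      (hA : A.det ≠ 0) (hK : Cls2 n K) : Cls2 n (img A b K)
  /-- (2) Closure under free sums of bodies containing the origin (an interior or a boundary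
  point). -/
  | freeSum {m n : ℕ} {K : Set (Fin m → ℝ)} {L : Set (Fin n → ℝ)} (hK0 : (fun _ => 0) ∈ K)
      (hL0 : (fun _ => 0) ∈ L) (hK : Cls2 m K) (hL : Cls2 n L) : Cls2 (m + n) (freeSum K L)
  /-- (2') Closure under bodies filling `1 - 1/(20(n + 2))` of an unconditional sum of bodies of the
  class with centroid `0` (so also under direct products). -/
  | uncSum {m : ℕ} {d : Fin m → ℕ} {L : ∀ i, Set (Fin (d i) → ℝ)} {U : Set (Fin m → ℝ)}
      {K : Set (Fin (∑ i, d i) → ℝ)} (hm : 2 ≤ m) (hL : ∀ i, Cls2 (d i) (L i))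
      (hc : ∀ i j, cen (L i) j = 0) (hU : SymIn Finset.univ U)
      (h : Fills (1 - 1 / (20 * (((∑ i, d i : ℕ) : ℝ) + 2))) K (uncSum d L U)) :
      Cls2 (∑ i, d i) K
  /-- (3) Bodies whose slices orthogonal to an axis are in the class, have collinear centroids and
  proportional covariance matrices. -/
  | slices {m : ℕ} {K : Set (Fin (m + 1) → ℝ)} {u v : Fin m → ℝ} {Q : Matrix (Fin m) (Fin m) ℝ}
      {t : ℝ → ℝ} (hK : Body K) (h1 : ∀ s, Body (slice K s) → Cls2 m (slice K s))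
      (h2 : ∀ s, Body (slice K s) → (∀ i, cen (slice K s) i = u i + s * v i) ∧
        ∀ i j, cov (slice K s) i j = t s * Q i j) : Cls2 (m + 1) K
  /-- (4) Bodies which lie between two bodies of the class on the path of a movement along the
  chords of one direction. -/
  | move {n : ℕ} {K : Set (Fin (n + 1) → ℝ)} {v : (Fin n → ℝ) → ℝ} {r : ℝ} (hr : 0 < r)
      (hK : Body K) (h1 : Cls2 (n + 1) (shift v '' K))
      (h2 : Cls2 (n + 1) (shift (fun y => -(r * v y)) '' K)) : Cls2 (n + 1) K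

end Vale.Agent.P254.H242
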