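import Vale.Agent.P254.Bdl.B10
import Vale.Agent.P254.US.E
import Vale.Agent.P254.US.A

/-!
P254: exchange of the fibres. `fb e H g` is the body with the fibres `{g ≤ ρ(y)}` over the points
`y` of the base; its normalised determinant is a functional of `H` times the one of `{g ≤ 1}`.
-/

open MeasureTheory Set Matrix

namespace Vale.Agent.P254.H242

open FV US

variable {n q p : ℕ}

/-- first group of coordinates -/
def yp (e : Fin n ≃ Fin q ⊕ Fin p) (z : Fin n → ℝ) : Fin q → ℝ := fun j => z (e.symm (Sum.inl j))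

/-- second group of coordinates -/
def xp (e : Fin n ≃ Fin q ⊕ Fin p) (z : Fin n → ℝ) : Fin p → ℝ := fun j => z (e.symm (Sum.inr j))

/-- the measurable equivalence -/
noncomputable def sp (e : Fin n ≃ Fin q ⊕ Fin p) : (Fin q → ℝ) × (Fin p → ℝ) ≃ᵐ (Fin n → ℝ) :=
  (MeasurableEquiv.sumPiEquivProdPi (fun _ : Fin q ⊕ Fin p => ℝ)).symm.trans
    (MeasurableEquiv.piCongrLeft (fun _ : Fin n => ℝ) e.symm)

theorem sp_inl (e : Fin n ≃ Fin q ⊕ Fin p) (w : (Fin q → ℝ) × (Fin p → ℝ)) (i : Fin q) :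
    sp e w (e.symm (Sum.inl i)) = w.1 i := by
  simp only [sp, MeasurableEquiv.trans_apply, MeasurableEquiv.coe_piCongrLeft,
    Equiv.piCongrLeft_apply_apply]
  rfl

theorem sp_inr (e : Fin n ≃ Fin q ⊕ Fin p) (w : (Fin q → ℝ) × (Fin p → ℝ)) (i : Fin p) :
    sp e w (e.symm (Sum.inr i)) = w.2 i := by
  simp only [sp, MeasurableEquiv.trans_apply, MeasurableEquiv.coe_piCongrLeft,
    Equiv.piCongrLeft_apply_apply]
  rfl

theorem yp_sp (e : Fin n ≃ Fin q ⊕ Fin p) (w : (Fin q → ℝ) × (Fin p → ℝ)) :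
    yp e (sp e w) = w.1 := funext fun i => sp_inl e w i

theorem xp_sp (e : Fin n ≃ Fin q ⊕ Fin p) (w : (Fin q → ℝ) × (Fin p → ℝ)) :
    xp e (sp e w) = w.2 := funext fun i => sp_inr e w i

theorem sp_mp (e : Fin n ≃ Fin q ⊕ Fin p) : MeasurePreserving (sp e) :=
  (volume_measurePreserving_sumPiEquivProdPi_symm (fun _ : Fin q ⊕ Fin p => ℝ)).trans
    (volume_measurePreserving_piCongrLeft (fun _ : Fin n => ℝ) e.symm)

theorem ext_yx (e : Fin n ≃ Fin q ⊕ Fin p) {z z' : Fin n → ℝ} (h1 : yp e z = yp e z')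
    (h2 : xp e z = xp e z') : z = z' := by
  funext i
  obtain ⟨s, rfl⟩ := e.symm.surjective i
  rcases s with j | j
  · exact congrFun h1 j
  · exact congrFun h2 j

theorem sp_yx (e : Fin n ≃ Fin q ⊕ Fin p) (z : Fin n → ℝ) : sp e (yp e z, xp e z) = z :=
  ext_yx e (by rw [yp_sp]) (by rw [xp_sp])

theorem cont_yp (e : Fin n ≃ Fin q ⊕ Fin p) : Continuous (yp e) := by
  unfold yp; fun_prop

theorem cont_xp (e : Fin n ≃ Fin q ⊕ Fin p) : Continuous (xp e) := by
  unfold xp; fun_prop

theorem cont_sp (e : Fin n ≃ Fin q ⊕ Fin p) : Continuous (sp e) := by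
  refine continuous_pi fun i => ?_
  obtain ⟨s, rfl⟩ := e.symm.surjective i
  rcases s with j | j
  · simp only [sp_inl]; fun_prop
  · simp only [sp_inr]; fun_prop

/-- the sets `H` below: convex, compact, decreasing in the last coordinate -/
structure HG (H : Set ((Fin q → ℝ) × ℝ)) : Prop where
  conv : Convex ℝ H
  cpt : IsCompact H
  nn : ∀ y r, (y, r) ∈ H → 0 ≤ r
  down : ∀ y r s, (y, r) ∈ H → 0 ≤ s → s ≤ r → (y, s) ∈ H

/-- the radius of the fibre -/
noncomputable def rho (H : Set ((Fin q → ℝ) × ℝ)) (y : Fin q → ℝ) : ℝ := sSup {r | (y, r) ∈ H}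

/-- the body with base `H` and gauge `g` -/
def fb (e : Fin n ≃ Fin q ⊕ Fin p) (H : Set ((Fin q → ℝ) × ℝ)) (g : (Fin p → ℝ) → ℝ) :
    Set (Fin n → ℝ) := {z | (yp e z, g (xp e z)) ∈ H}

theorem fibre (e : Fin n ≃ Fin q ⊕ Fin p) {H : Set ((Fin q → ℝ) × ℝ)} (hH : HG H)
    {g : (Fin p → ℝ) → ℝ} (hg : IsG g) (y : Fin q → ℝ) :
    {x | sp e (y, x) ∈ fb e H g} = {x | g x ≤ rho H y} ∨
      {x | sp e (y, x) ∈ fb e H g} = ∅ ∧ rho H y = 0 := by
  have e1 : {x | sp e (y, x) ∈ fb e H g} = {x | (y, g x) ∈ H} := by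
    ext x
    simp only [fb, mem_ofPred_eq, yp_sp, xp_sp]
  rw [e1]
  rcases (({r | (y, r) ∈ H} : Set ℝ)).eq_empty_or_nonempty with h | h
  · right
    constructor
    · ext x
      simp only [mem_ofPred_eq, mem_empty_iff_false, iff_false]
      intro hx
      have : g x ∈ ({r | (y, r) ∈ H} : Set ℝ) := hx
      rw [h] at this
      exact this
    · unfold rho
      rw [h, Real.sSup_empty]
  · left
    have hc : IsCompact ({r | (y, r) ∈ H} : Set ℝ) := by
      have h2 : ({r | (y, r) ∈ H} : Set ℝ) = Prod.snd '' (H ∩ {w | w.1 = y}) := by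
        ext r
        constructor
        · intro hr
          exact ⟨(y, r), ⟨hr, rfl⟩, rfl⟩
        · rintro ⟨⟨y', r'⟩, ⟨hr, h3⟩, rfl⟩
          have h3' : y' = y := h3
          subst h3'
          exact hr
      rw [h2]
      exact (hH.cpt.inter_right (isClosed_eq continuous_fst continuous_const)).image
        continuous_snd
    have hs : (y, rho H y) ∈ H := hc.sSup_mem h
    ext x
    simp only [mem_ofPred_eq]
    constructor
    · intro hx
      exact le_csSup hc.bddAbove hx
    · intro hx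
      exact hH.down _ _ _ hs (hg.nonneg x) hx

theorem convex_fb (e : Fin n ≃ Fin q ⊕ Fin p) {H : Set ((Fin q → ℝ) × ℝ)} (hH : HG H)
    {g : (Fin p → ℝ) → ℝ} (hg : IsG g) : Convex ℝ (fb e H g) := by
  intro z hz z' hz' a b ha hb hab
  have h1 := hH.conv hz hz' ha hb hab
  have h2 : yp e (a • z + b • z') = a • yp e z + b • yp e z' := rfl
  have h3 : xp e (a • z + b • z') = a • xp e z + b • xp e z' := rfl
  show (yp e (a • z + b • z'), g (xp e (a • z + b • z'))) ∈ H
  rw [h2, h3]
  refine hH.down _ _ _ h1 (hg.nonneg _) ?_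
  refine (hg.add _ _).trans ?_
  rw [hg.smul a ha, hg.smul b hb]
  rfl

theorem compact_fb (e : Fin n ≃ Fin q ⊕ Fin p) {H : Set ((Fin q → ℝ) × ℝ)} (hH : HG H)
    {g : (Fin p → ℝ) → ℝ} (hg : IsG g) : IsCompact (fb e H g) := by
  refine Metric.isCompact_of_isClosed_isBounded ?_ ?_
  · exact hH.cpt.isClosed.preimage ((cont_yp e).prodMk (hg.cont.comp (cont_xp e)))
  · obtain ⟨c, hc, hcg⟩ := hg.coer
    obtain ⟨R, hR⟩ := hH.cpt.isBounded.subset_closedBall (0 : (Fin q → ℝ) × ℝ)
    refine (Metric.isBounded_closedBall (x := (0 : Fin n → ℝ)) (r := max R (R / c))).subset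
      fun z hz => ?_
    have h1 := hR hz
    rw [mem_closedBall_zero_iff] at h1 ⊢
    have h2 : ‖yp e z‖ ≤ R := (norm_fst_le _).trans h1
    have h3 : g (xp e z) ≤ R := (le_abs_self _).trans ((norm_snd_le _).trans h1)
    have h4 : ‖xp e z‖ ≤ R / c := by
      rw [le_div_iff₀ hc, mul_comm]
      exact (hcg _).trans h3
    have hR0 : 0 ≤ R := (norm_nonneg _).trans h2
    refine (pi_norm_le_iff_of_nonneg (le_max_of_le_left hR0)).2 fun i => ?_
    obtain ⟨s, rfl⟩ := e.symm.surjective i
    rcases s with j | j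
    · exact ((norm_le_pi_norm (yp e z) j).trans h2).trans (le_max_left _ _)
    · exact ((norm_le_pi_norm (xp e z) j).trans h4).trans (le_max_right _ _)

/-- integration over the fibres -/
theorem int_split (e : Fin n ≃ Fin q ⊕ Fin p) {K : Set (Fin n → ℝ)} (hK : IsCompact K)
    {F : (Fin n → ℝ) → ℝ} (hF : Continuous F) :
    ∫ z in K, F z = ∫ y, ∫ x in {x | sp e (y, x) ∈ K}, F (sp e (y, x)) := by
  have hi : IntegrableOn F K := hF.continuousOn.integrableOn_compact hK
  rw [← (sp_mp e).setIntegral_preimage_emb (MeasurableEquiv.measurableEmbedding _) F]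
  have hm : MeasurableSet (sp e ⁻¹' K) := (sp e).measurable hK.measurableSet
  have hi2 : IntegrableOn (fun w => F (sp e w)) (sp e ⁻¹' K) :=
    ((sp_mp e).integrableOn_comp_preimage (MeasurableEquiv.measurableEmbedding _)).2 hi
  rw [← integral_indicator hm]
  have hi3 : Integrable ((sp e ⁻¹' K).indicator fun w => F (sp e w)) :=
    (integrable_indicator_iff hm).2 hi2
  rw [Measure.volume_eq_prod] at hi3 ⊢
  rw [integral_prod _ hi3]
  refine integral_congr_ae (Filter.Eventually.of_forall fun y => ?_)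
  have hm2 : MeasurableSet {x | sp e (y, x) ∈ K} := by
    refine (hK.isClosed.preimage ?_).measurableSet
    exact (cont_sp e).comp (by fun_prop)
  show ∫ x, (sp e ⁻¹' K).indicator (fun w => F (sp e w)) (y, x) =
    ∫ x in {x | sp e (y, x) ∈ K}, F (sp e (y, x))
  rw [← integral_indicator hm2]
  rfl

/-- integration over `fb` of a product -/
theorem int_fb (e : Fin n ≃ Fin q ⊕ Fin p) {H : Set ((Fin q → ℝ) × ℝ)} (hH : HG H)
    {g : (Fin p → ℝ) → ℝ} (hg : IsG g) (hp : 1 ≤ p) {k : ℕ} {G : (Fin q → ℝ) → ℝ}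
    {f : (Fin p → ℝ) → ℝ} (hG : Continuous G) (hf : Continuous f)
    (hfh : ∀ t : ℝ, 0 ≤ t → ∀ x, f (t • x) = t ^ k * f x) :
    ∫ z in fb e H g, G (yp e z) * f (xp e z) =
      (∫ y, G y * rho H y ^ (p + k)) * ∫ x in ball g, f x := by
  rw [int_split e (compact_fb e hH hg) (F := fun z => G (yp e z) * f (xp e z))
    ((hG.comp (cont_yp e)).mul (hf.comp (cont_xp e))), ← integral_mul_const]
  refine integral_congr_ae (Filter.Eventually.of_forall fun y => ?_)
  simp only [yp_sp, xp_sp]
  rw [integral_const_mul, mul_assoc]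
  congr 1
  rcases fibre e hH hg y with h | ⟨h, h0⟩
  · rw [h]
    refine hg.int_le hfh ?_
    unfold rho
    exact Real.sSup_nonneg fun r hr => hH.nn y r hr
  · rw [h, h0, zero_pow (by omega), zero_mul, Measure.restrict_empty, integral_zero_measure]

/-- the functional of the base -/
noncomputable def JJ (p : ℕ) (H : Set ((Fin q → ℝ) × ℝ)) (k : ℕ) (G : (Fin q → ℝ) → ℝ) : ℝ :=
  ∫ y, G y * rho H y ^ (p + k)

/-- the covariance matrix of the base -/
noncomputable def AA (p : ℕ) (H : Set ((Fin q → ℝ) × ℝ)) : Matrix (Fin q) (Fin q) ℝ :=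
  fun i j => (JJ p H 0 fun _ => 1)⁻¹ * JJ p H 0 (fun y => y i * y j) -
    ((JJ p H 0 fun _ => 1)⁻¹ * JJ p H 0 fun y => y i) *
      ((JJ p H 0 fun _ => 1)⁻¹ * JJ p H 0 fun y => y j)

/-- the factor of the base -/
noncomputable def Ph (p : ℕ) (H : Set ((Fin q → ℝ) × ℝ)) : ℝ :=
  (AA p H).det * ((JJ p H 0 fun _ => 1)⁻¹ * JJ p H 2 fun _ => 1) ^ p /
    (JJ p H 0 fun _ => 1) ^ 2

section
variable (e : Fin n ≃ Fin q ⊕ Fin p) {H : Set ((Fin q → ℝ) × ℝ)} (hH : HG H)
  {g : (Fin p → ℝ) → ℝ} (hg : IsG g) (hp : 1 ≤ p)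

include hH hg hp

theorem vol_fb : (volume (fb e H g)).toReal = JJ p H 0 (fun _ => 1) * (volume (ball g)).toReal := by
  have h := int_fb e hH hg hp (k := 0) (G := fun _ => 1) (f := fun _ => 1) continuous_const
    continuous_const (fun t _ x => by simp)
  simpa [Measure.real, JJ] using h

theorem Dn_fb (h0 : ∀ j, ∫ x in ball g, x j = 0) (hW : (volume (ball g)).toReal ≠ 0)
    (hJ : JJ p H 0 (fun _ => 1) ≠ 0) : Dn (fb e H g) = Ph p H * Dn (ball g) := by
  have hc := compact_fb e hH hg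
  have hcW : IsCompact (ball g) := hg.compact_le 1
  have hV : (volume (fb e H g)).toReal ≠ 0 := by
    rw [vol_fb e hH hg hp]
    exact mul_ne_zero hJ hW
  have hcW0 : ∀ j, centroid (ball g) j = 0 := fun j => by
    rw [centroid, h0, mul_zero]
  have hcl : ∀ i : Fin q, centroid (fb e H g) (e.symm (Sum.inl i)) =
      (JJ p H 0 fun _ => 1)⁻¹ * JJ p H 0 fun y => y i := by
    intro i
    have h := int_fb e hH hg hp (k := 0) (G := fun y => y i) (f := fun _ => 1)
      (continuous_apply i) continuous_const (fun t _ x => by simp)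
    have h' : ∫ z in fb e H g, z (e.symm (Sum.inl i)) =
        JJ p H 0 (fun y => y i) * (volume (ball g)).toReal := by
      simpa [Measure.real, JJ, yp] using h
    rw [centroid, h', vol_fb e hH hg hp]
    field_simp
  have hcr : ∀ j : Fin p, centroid (fb e H g) (e.symm (Sum.inr j)) = 0 := by
    intro j
    have h := int_fb e hH hg hp (k := 1) (G := fun _ => 1) (f := fun x => x j)
      continuous_const (continuous_apply j) (fun t _ x => by simp)
    rw [h0, mul_zero] at h
    have h' : ∫ z in fb e H g, z (e.symm (Sum.inr j)) = 0 := by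
      simpa [xp] using h
    rw [centroid, h', mul_zero]
  have hM : covMatrix (fb e H g) = (fromBlocks (AA p H) 0 0
      (((JJ p H 0 fun _ => 1)⁻¹ * JJ p H 2 fun _ => 1) • covMatrix (ball g))).submatrix e e := by
    have h12 : ∀ (i : Fin q) (j : Fin p),
        covMatrix (fb e H g) (e.symm (Sum.inl i)) (e.symm (Sum.inr j)) = 0 := by
      intro i j
      have h := int_fb e hH hg hp (k := 1) (G := fun y => y i) (f := fun x => x j)
        (continuous_apply i) (continuous_apply j) (fun t _ x => by simp)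
      rw [h0, mul_zero] at h
      have h' : ∫ z in fb e H g, z (e.symm (Sum.inl i)) * z (e.symm (Sum.inr j)) = 0 := h
      rw [cov_eq hc hV, hcr, h']
      ring
    ext i j
    obtain ⟨s, rfl⟩ := e.symm.surjective i
    obtain ⟨t, rfl⟩ := e.symm.surjective j
    rw [submatrix_apply, e.apply_symm_apply, e.apply_symm_apply]
    rcases s with a | a <;> rcases t with b | b
    · have h := int_fb e hH hg hp (k := 0) (G := fun y => y a * y b) (f := fun _ => 1)
        (by fun_prop) continuous_const (fun t _ x => by simp)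
      have h' : ∫ z in fb e H g, z (e.symm (Sum.inl a)) * z (e.symm (Sum.inl b)) =
          JJ p H 0 (fun y => y a * y b) * (volume (ball g)).toReal := by
        simpa [Measure.real, JJ, yp] using h
      rw [cov_eq hc hV, hcl, hcl, h', vol_fb e hH hg hp, fromBlocks_apply₁₁]
      unfold AA
      field_simp
    · rw [h12, fromBlocks_apply₁₂, Matrix.zero_apply]
    · rw [covMatrix_symm, h12, fromBlocks_apply₂₁, Matrix.zero_apply]
    · have h := int_fb e hH hg hp (k := 2) (G := fun _ => 1) (f := fun x => x a * x b)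
        continuous_const (by fun_prop) (fun t _ x => by simp; ring)
      have h' : ∫ z in fb e H g, z (e.symm (Sum.inr a)) * z (e.symm (Sum.inr b)) =
          JJ p H 2 (fun _ => 1) * ∫ x in ball g, x a * x b := by
        simpa [JJ, xp] using h
      rw [cov_eq hc hV, hcr, hcr, h', vol_fb e hH hg hp, fromBlocks_apply₂₂, Matrix.smul_apply,
        cov_eq hcW hW, hcW0, hcW0, smul_eq_mul]
      field_simp
      ring
  unfold Dn Ph
  rw [hM, det_submatrix_equiv_self, det_fromBlocks_zero₁₂, det_smul, vol_fb e hH hg hp,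
    Fintype.card_fin]
  field_simp

end

end Vale.Agent.P254.H242
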