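import Vale.Agent.P254.H242.Lay
import Vale.Agent.P254.H242.Sharp
import Vale.Agent.P254.H375.Sup

/-!
P254: the determinant of a body all of whose fibres are homothetic.
-/

open MeasureTheory Set Matrix

namespace Vale.Agent.P254.H242

open FV US H375

variable {n q p : ℕ} {H : Set ((Fin q → ℝ) × ℝ)}

/-- the density of the base -/
noncomputable def dens (p : ℕ) (H : Set ((Fin q → ℝ) × ℝ)) (y : Fin q → ℝ) : ℝ :=
  rho H y ^ p / ∫ y, rho H y ^ p

theorem rho_conc (hH : HG H) {x y : Fin q → ℝ} {t : ℝ} (ht0 : 0 < t) (ht1 : t < 1)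
    (hx : 0 < rho H x) (hy : 0 < rho H y) :
    rho H x ^ (1 - t) * rho H y ^ t ≤ rho H ((1 - t) • x + t • y) := by
  have h1 := hH.conv (rho_mem hH hx) (rho_mem hH hy) (by linarith : (0 : ℝ) ≤ 1 - t) ht0.le
    (by ring)
  refine (Real.geom_mean_le_arith_mean2_weighted (by linarith) ht0.le hx.le hy.le
    (by ring)).trans ?_
  exact le_rho hH h1

theorem dens_lc (hH : HG H) (hp : 1 ≤ p) (hJ : 0 < ∫ y, rho H y ^ p) :
    LogConcave (dens p H) := by
  have h0 : ∀ x, 0 ≤ dens p H x := fun x =>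
    div_nonneg (pow_nonneg (rho_nonneg hH x) p) hJ.le
  refine ⟨h0, fun x y t ht => ?_⟩
  rcases ht.1.eq_or_lt with h | ht0
  · rw [← h]
    simp
  rcases ht.2.eq_or_lt with h | ht1
  · rw [h]
    simp
  have hz : ∀ z, rho H z = 0 → dens p H z = 0 := fun z hz => by
    unfold dens
    rw [hz, zero_pow (by omega), zero_div]
  rcases (rho_nonneg hH x).eq_or_lt with hx | hx
  · rw [hz x hx.symm, Real.zero_rpow (by linarith), zero_mul]
    exact h0 _
  rcases (rho_nonneg hH y).eq_or_lt with hy | hy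
  · rw [hz y hy.symm, Real.zero_rpow ht0.ne', mul_zero]
    exact h0 _
  have h1 := rho_conc hH ht0 ht1 hx hy
  have h2 := pow_le_pow_left₀ (by positivity) h1 p
  unfold dens
  rw [Real.div_rpow (by positivity) hJ.le, Real.div_rpow (by positivity) hJ.le,
    div_mul_div_comm, ← Real.rpow_add hJ, sub_add_cancel, Real.rpow_one]
  refine div_le_div_of_nonneg_right (le_trans (le_of_eq ?_) h2) hJ.le
  rw [mul_pow, ← Real.rpow_natCast, ← Real.rpow_natCast, ← Real.rpow_natCast, ← Real.rpow_natCast,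
    ← Real.rpow_mul hx.le, ← Real.rpow_mul hy.le, ← Real.rpow_mul hx.le, ← Real.rpow_mul hy.le,
    mul_comm (p : ℝ), mul_comm (p : ℝ)]

theorem dens_one (hJ : 0 < ∫ y, rho H y ^ p) : ∫ y, dens p H y = 1 := by
  unfold dens
  rw [integral_div, div_self hJ.ne']

theorem dens_cov : cov (dens p H) = AA p H := by
  ext i j
  have e : ∀ G : (Fin q → ℝ) → ℝ, ∫ y, G y * dens p H y =
      (∫ y, rho H y ^ p)⁻¹ * ∫ y, G y * rho H y ^ p := by
    intro G
    rw [← integral_const_mul]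
    refine integral_congr_ae (Filter.Eventually.of_forall fun y => ?_)
    show G y * dens p H y = _
    unfold dens
    ring
  unfold cov AA JJ
  rw [e fun y => y i * y j, e fun y => y i, e fun y => y j]
  simp

theorem J1_pos (hH : HG H) (hp : 2 ≤ p) (hJ : 0 < ∫ y, rho H y ^ p) :
    0 < ∫ y, rho H y ^ (p - 1) := by
  obtain ⟨R, hR0, hR⟩ := exists_bd hH
  have h1 : ∫ y, rho H y ^ p ≤ R * ∫ y, rho H y ^ (p - 1) := by
    rw [← integral_const_mul]
    refine integral_mono (intg_rho hH (by omega)) ((intg_rho hH (by omega)).const_mul R)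
      fun y => ?_
    have e : rho H y ^ p = rho H y * rho H y ^ (p - 1) := by
      rw [← pow_succ']
      congr 1
      omega
    show rho H y ^ p ≤ R * rho H y ^ (p - 1)
    rw [e]
    exact mul_le_mul_of_nonneg_right (rho_le hH hR0 hR y) (pow_nonneg (rho_nonneg hH y) _)
  have h2 : 0 < R * ∫ y, rho H y ^ (p - 1) := hJ.trans_le h1
  exact pos_of_mul_pos_right h2 hR0.le

/-- the entropy of the base density -/
theorem dens_ent (hH : HG H) (hp : 2 ≤ p) (hJ : 0 < ∫ y, rho H y ^ p) :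
    entropy (dens p H) ≤ Real.log (∫ y, rho H y ^ p) +
      p * Real.log ((∫ y, rho H y ^ (p - 1)) / ∫ y, rho H y ^ p) := by
  set J : ℝ := ∫ y, rho H y ^ p with hJd
  set J1 : ℝ := ∫ y, rho H y ^ (p - 1) with hJ1d
  have hJ1 : 0 < J1 := J1_pos hH hp hJ
  have hc : 0 < J1 / J := by positivity
  have hi := integrable_flog (dens_lc hH (by omega) hJ) (dens_one hJ)
  have h1 : Integrable fun y => rho H y ^ (p - 1) := intg_rho hH (by omega)
  have h2 : Integrable fun y => rho H y ^ p := intg_rho hH (by omega)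
  unfold entropy
  rw [← integral_neg]
  have h3 : ∫ y, -(dens p H y * Real.log (dens p H y)) ≤
      ∫ y, (((p : ℝ) / (J * (J1 / J)) * rho H y ^ (p - 1)) +
        ((p * (Real.log (J1 / J) - 1) + Real.log J) / J * rho H y ^ p)) := by
    refine integral_mono hi.neg ((h1.const_mul _).add (h2.const_mul _)) fun y => ?_
    show -(dens p H y * Real.log (dens p H y)) ≤ (p : ℝ) / (J * (J1 / J)) * rho H y ^ (p - 1) +
      (p * (Real.log (J1 / J) - 1) + Real.log J) / J * rho H y ^ p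
    unfold dens
    rw [← hJd]
    rcases (rho_nonneg hH y).eq_or_lt with h | h
    · rw [← h, zero_pow (by omega), zero_pow (by omega)]
      simp
    · have h4 : Real.log (rho H y ^ p / J) = p * Real.log (rho H y) - Real.log J := by
        rw [Real.log_div (by positivity) hJ.ne', Real.log_pow]
      have h5 : -Real.log (rho H y) ≤ 1 / (rho H y * (J1 / J)) - 1 + Real.log (J1 / J) := by
        have h6 := Real.log_le_sub_one_of_pos (x := 1 / (rho H y * (J1 / J))) (by positivity)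
        rw [one_div, Real.log_inv, Real.log_mul h.ne' hc.ne'] at h6
        rw [one_div]
        linarith
      have e : rho H y ^ p = rho H y * rho H y ^ (p - 1) := by
        rw [← pow_succ']
        congr 1
        omega
      have h7 : -(rho H y ^ p / J * Real.log (rho H y ^ p / J)) =
          p * (rho H y ^ p / J) * (-Real.log (rho H y)) + rho H y ^ p / J * Real.log J := by
        rw [h4]
        ring
      rw [h7]
      have h8 : 0 ≤ (p : ℝ) * (rho H y ^ p / J) := by positivity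
      refine (add_le_add_left (mul_le_mul_of_nonneg_left h5 h8) _).trans (le_of_eq ?_)
      rw [e]
      field_simp
      ring
  refine h3.trans (le_of_eq ?_)
  rw [integral_add (h1.const_mul _) (h2.const_mul _), integral_const_mul, integral_const_mul,
    ← hJd, ← hJ1d]
  field_simp
  ring

theorem AA_le (hH : HG H) (hp : 2 ≤ p) (hJ : 0 < ∫ y, rho H y ^ p) :
    (AA p H).det ≤ Real.exp (-(33 / 20 * q)) * (∫ y, rho H y ^ p) ^ 2 *
      ((∫ y, rho H y ^ (p - 1)) / ∫ y, rho H y ^ p) ^ (2 * p) := by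
  have hJ1 := J1_pos hH hp hJ
  have hlc := dens_lc hH (by omega : 1 ≤ p) hJ
  have h1 := entropy_ge niceDDL hlc (dens_one hJ)
  have h2 := dens_ent hH hp hJ
  have h3 := (cov_posDef hlc (dens_one hJ)).det_pos
  rw [dens_cov] at h1 h3
  have h4 : Real.log (AA p H).det ≤ -(33 / 20 * q) + 2 * Real.log (∫ y, rho H y ^ p) +
      ((2 * p : ℕ) : ℝ) * Real.log ((∫ y, rho H y ^ (p - 1)) / ∫ y, rho H y ^ p) := by
    push_cast
    linarith
  rw [Real.log_le_iff_le_exp h3, Real.exp_add, Real.exp_add, Real.exp_nat_mul,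
    Real.exp_log (by positivity)] at h4
  refine h4.trans (le_of_eq ?_)
  congr 2
  rw [two_mul, Real.exp_add, Real.exp_log hJ]
  ring

theorem pow_le_e3 (hp : 2 ≤ p) : (((p : ℝ) + 1) * (p + 2) / p ^ 2) ^ p ≤ Real.exp 3 := by
  have hp0 : (0 : ℝ) < p := by positivity
  have h1 : ((p : ℝ) + 1) * (p + 2) / p ^ 2 = (1 / (p : ℝ) + 1) * (2 / (p : ℝ) + 1) := by
    field_simp
    ring
  have h2 : 1 / (p : ℝ) + 1 ≤ Real.exp (1 / p) := Real.add_one_le_exp _
  have h3 : 2 / (p : ℝ) + 1 ≤ Real.exp (2 / p) := Real.add_one_le_exp _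
  have h4 : (1 / (p : ℝ) + 1) * (2 / (p : ℝ) + 1) ≤ Real.exp (3 / p) := by
    refine (mul_le_mul h2 h3 (by positivity) (Real.exp_pos _).le).trans (le_of_eq ?_)
    rw [← Real.exp_add]
    congr 1
    field_simp
    norm_num
  rw [h1]
  refine (pow_le_pow_left₀ (by positivity) h4 p).trans (le_of_eq ?_)
  rw [← Real.exp_nat_mul]
  congr 1
  field_simp

/-- the factor of the base is at most `e^(3 - 33 q / 20)` -/
theorem Ph_le (hH : HG H) (hp : 2 ≤ p) (hJ : 0 < ∫ y, rho H y ^ p) :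
    Ph p H ≤ Real.exp (3 - 33 / 20 * q) := by
  have h1 := AA_le hH hp hJ
  have h2 := mom_borell hH hp hJ
  have h3 := pow_le_e3 hp
  have hJ1 := J1_pos hH hp hJ
  have e0 : JJ p H 0 (fun _ => 1) = ∫ y, rho H y ^ p := by simp [JJ]
  have e2 : JJ p H 2 (fun _ => 1) = ∫ y, rho H y ^ (p + 2) := by simp [JJ]
  unfold Ph
  rw [e0, e2]
  set J : ℝ := ∫ y, rho H y ^ p
  set J1 : ℝ := ∫ y, rho H y ^ (p - 1)
  set J2 : ℝ := ∫ y, rho H y ^ (p + 2) with hJ2
  have hJ20 : 0 ≤ J2 := integral_nonneg fun y => pow_nonneg (rho_nonneg hH y) _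
  have h4 : J2 * J1 ^ 2 / J ^ 3 ≤ ((p : ℝ) + 1) * (p + 2) / p ^ 2 := by
    rw [div_le_iff₀ (by positivity), mul_comm _ (J ^ 3)]
    exact h2
  have h5 : (J2 * J1 ^ 2 / J ^ 3) ^ p ≤ Real.exp 3 :=
    (pow_le_pow_left₀ (by positivity) h4 p).trans h3
  have h6 : 0 ≤ (J⁻¹ * J2) ^ p / J ^ 2 := by positivity
  calc (AA p H).det * (J⁻¹ * J2) ^ p / J ^ 2
      = (AA p H).det * ((J⁻¹ * J2) ^ p / J ^ 2) := by ring
    _ ≤ Real.exp (-(33 / 20 * q)) * J ^ 2 * (J1 / J) ^ (2 * p) * ((J⁻¹ * J2) ^ p / J ^ 2) :=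
        mul_le_mul_of_nonneg_right h1 h6
    _ = Real.exp (-(33 / 20 * q)) * (J2 * J1 ^ 2 / J ^ 3) ^ p := by
        have e : (J2 * J1 ^ 2 / J ^ 3) ^ p = (J1 / J) ^ (2 * p) * (J⁻¹ * J2) ^ p := by
          rw [pow_mul, ← mul_pow]
          congr 1
          field_simp
        rw [e]
        field_simp
    _ ≤ Real.exp (-(33 / 20 * q)) * Real.exp 3 := mul_le_mul_of_nonneg_left h5 (Real.exp_pos _).le
    _ = _ := by rw [← Real.exp_add]; congr 1; ring

/-- **bodies with homothetic fibres** -/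
theorem Dn_fb_le (e : Fin n ≃ Fin q ⊕ Fin p) (hH : HG H) {g : (Fin p → ℝ) → ℝ} (hg : IsG g)
    (hp : 2 ≤ p) (h0 : ∀ j, ∫ x in ball g, x j = 0) (hb : IsConvexBody (ball g))
    (hV : (volume (fb e H g)).toReal ≠ 0) :
    Dn (fb e H g) ≤ Real.exp (3 - 33 / 20 * q) * Dn (ball g) := by
  have hp1 : 1 ≤ p := by omega
  have e0 : JJ p H 0 (fun _ => 1) = ∫ y, rho H y ^ p := by simp [JJ]
  have hv := vol_fb e hH hg hp1
  rw [e0] at hv
  have hJ0 : 0 ≤ ∫ y, rho H y ^ p := integral_nonneg fun y => pow_nonneg (rho_nonneg hH y) _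
  have hJ : 0 < ∫ y, rho H y ^ p := by
    refine lt_of_le_of_ne hJ0 fun h => hV ?_
    rw [hv, ← h, zero_mul]
  rw [Dn_fb e hH hg hp1 h0 (vol_pos hb).ne' (by rw [e0]; exact hJ.ne')]
  exact mul_le_mul_of_nonneg_right (Ph_le hH hp hJ) (Dn_nonneg hb)

end Vale.Agent.P254.H242
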