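import Vale.Agent.P254.H242.Defs
import Vale.Agent.P254.H242.Sharp
import Vale.Agent.P254.H242.Num
import Vale.Agent.P254.CC.Main
import Vale.Agent.P254.Glob.Main

/-!
P254: the final theorems of this module.
-/

open MeasureTheory Set Matrix

namespace Vale.Agent.P254.H242

open CC FV

variable {n : ℕ}

theorem ballVol_eq (p : ℕ) : ballVol p = kap p := rfl

theorem ballRatio_eq (p : ℕ) : ballRatio p = RR p := rfl

theorem rotIn_iff (T : Finset (Fin n)) (K : Set (Fin n → ℝ)) : RotIn T K ↔ RInv T K := Iff.rfl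

/-- near-sharp inequality for bodies with rotational symmetries -/
theorem rot_le {m : ℕ} (hn : 1 ≤ n) {K : Set (Fin n → ℝ)} (hK : IsConvexBody K)
    {T : Fin m → Finset (Fin n)} (hT : ∀ i j, i ≠ j → Disjoint (T i) (T j))
    (hR : ∀ i, RInv (T i) K) :
    Dn K ≤ Real.exp (7 / 20 * ((n : ℝ) + 1)) * (∏ i, RR (T i).card) * simpC n := by
  obtain ⟨K', hK', hD⟩ := blocks T hT hK hR
  have h1 := Dn_near_sharp hn hK'
  have h2 : 0 ≤ ∏ i, RR (T i).card := Finset.prod_nonneg fun i _ => (RR_pos _).le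
  calc Dn K ≤ (∏ i, RR (T i).card) * Dn K' := hD
    _ ≤ (∏ i, RR (T i).card) * (Real.exp (7 / 20 * ((n : ℝ) + 1)) * simpC n) :=
        mul_le_mul_of_nonneg_left h1 h2
    _ = _ := by ring

theorem sum_card_le {m : ℕ} {T : Fin m → Finset (Fin n)} (hT : ∀ i j, i ≠ j → Disjoint (T i) (T j)) :
    ∑ i, (T i).card ≤ n := by
  classical
  rw [← Finset.card_biUnion fun i _ j _ h => hT i j h]
  exact (Finset.card_le_univ _).trans (by simp)

theorem RR_le_one (p : ℕ) : RR p ≤ 1 := by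
  have h0 : RR 0 ≤ 1 := by rw [RR_zero]
  have h1 : RR 1 ≤ 1 := by
    unfold RR
    rw [kap_one]
    norm_num [Nat.factorial]
  have key : ∀ p : ℕ, RR p ≤ 1 ∧ RR (p + 1) ≤ 1 := by
    intro p
    induction p with
    | zero => exact ⟨h0, h1⟩
    | succ p ih =>
      refine ⟨ih.2, ?_⟩
      rcases Nat.lt_or_ge p 2 with hp | hp
      · interval_cases p
        · rw [RR_succ2]
          have hpi := pi_sq_ge
          refine mul_le_one₀ ih.1 (by positivity) ?_
          rw [div_le_one (by positivity)]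
          norm_num
          linarith
        · rw [RR_succ2]
          have hpi := pi_sq_ge
          refine mul_le_one₀ ih.1 (by positivity) ?_
          rw [div_le_one (by positivity)]
          norm_num
          linarith
      · have hp' : (2 : ℝ) ≤ p := by exact_mod_cast hp
        set y : ℝ := 1 / ((p : ℝ) + 2) with hy
        have hy0 : 0 ≤ y := by rw [hy]; positivity
        have hy1 : y ≤ 1 / 4 := by
          rw [hy]
          exact one_div_le_one_div_of_le (by norm_num) (by linarith)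
        have h2 := step2 hp hy
        have hpi : 0 < 4 * Real.pi ^ 2 := by have := Real.pi_pos; positivity
        rw [RR_succ2]
        refine mul_le_one₀ ih.1 (by positivity) ?_
        rw [div_le_one hpi]
        refine h2.trans ((Real.exp_le_exp.2 ?_).trans exp_367)
        have h4 : y ^ 2 ≤ (1 / 4) ^ 2 := pow_le_pow_left₀ hy0 hy1 2
        have h5 : y ^ 3 ≤ (1 / 4) ^ 3 := pow_le_pow_left₀ hy0 hy1 3
        norm_num at h4 h5 ⊢
        linarith
  exact (key p).1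

/-- the numerical condition holds if one block is large or all blocks have size at least four -/
theorem rot_num {m : ℕ} {T : Fin m → Finset (Fin n)} (hn : 1 ≤ n)
    (h : (∃ i, n + 5 ≤ 2 * (T i).card) ∨
      (∀ i, 4 ≤ (T i).card) ∧ 15 * (n + 1) ≤ n + 15 * ∑ i, (T i).card) :
    Real.exp (7 / 20 * ((n : ℝ) + 1)) * ∏ i, RR (T i).card < 1 := by
  classical
  rcases h with ⟨i, hi⟩ | ⟨h4, hs⟩
  · have hc : (T i).card ≤ n := (Finset.card_le_univ _).trans (by simp)
    have h5 : 5 ≤ (T i).card := by omega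
    have h1 : ∏ j, RR (T j).card ≤ RR (T i).card := by
      rw [← Finset.mul_prod_erase Finset.univ _ (Finset.mem_univ i)]
      refine mul_le_of_le_one_right (RR_pos _).le ?_
      exact Finset.prod_le_one (fun j _ => (RR_pos _).le) fun j _ => RR_le_one _
    have h2 := one_block h5
    refine lt_of_le_of_lt ?_ h2
    refine mul_le_mul (Real.exp_le_exp.2 ?_) h1
      (Finset.prod_nonneg fun j _ => (RR_pos _).le) (Real.exp_pos _).le
    have : (n : ℝ) + 5 ≤ 2 * (T i).card := by exact_mod_cast hi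
    linarith
  · have h1 : ∏ i, RR (T i).card ≤ Real.exp (-(3 / 8 * ((∑ i, (T i).card : ℕ) : ℝ))) := by
      have e : Real.exp (-(3 / 8 * ((∑ i, (T i).card : ℕ) : ℝ))) =
          ∏ i, Real.exp (-(3 / 8 * ((T i).card : ℝ))) := by
        rw [← Real.exp_sum]
        congr 1
        push_cast
        rw [Finset.mul_sum, ← Finset.sum_neg_distrib]
      rw [e]
      exact Finset.prod_le_prod (fun i _ => (RR_pos _).le) fun i _ => four_block (h4 i)
    refine lt_of_le_of_lt (mul_le_mul_of_nonneg_left h1 (Real.exp_pos _).le) ?_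
    rw [← Real.exp_add, Real.exp_lt_one_iff]
    have hs' : 15 * ((n : ℝ) + 1) ≤ n + 15 * ((∑ i, (T i).card : ℕ) : ℝ) := by exact_mod_cast hs
    linarith

/-- bodies filling the part `t` of a body -/
theorem Dn_fills (hn : 1 ≤ n) {K U : Set (Fin n → ℝ)} (hK : IsConvexBody K) (hU : IsConvexBody U)
    (hKU : K ⊆ U) {t : ℝ} (ht : 0 < t) (hvol : t * (volume U).toReal ≤ (volume K).toReal) :
    Dn K ≤ Dn U / t ^ (n + 2) := by
  have hV := vol_pos hK
  have hW := vol_pos hU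
  have h1 := det_cov_le_of_subset (by omega) hK.2.1 hV hU hKU
  have h2 : (volume U).toReal / (volume K).toReal ≤ 1 / t := by
    rw [div_le_div_iff₀ hV ht]
    linarith
  have h3 : 0 ≤ (covMatrix U).det := (covMatrix_posSemidef hU.2.1).det_nonneg
  have h4 : Dn K ≤ ((volume U).toReal / (volume K).toReal) ^ (n + 2) * Dn U := by
    unfold Dn
    rw [div_le_iff₀ (by positivity)]
    refine h1.trans (le_of_eq ?_)
    rw [pow_add]
    field_simp
  have h5 : ((volume U).toReal / (volume K).toReal) ^ (n + 2) ≤ (1 / t) ^ (n + 2) :=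
    pow_le_pow_left₀ (by positivity) h2 _
  refine (h4.trans (mul_le_mul_of_nonneg_right h5 (Dn_nonneg hU))).trans (le_of_eq ?_)
  rw [_root_.one_div_pow, one_div_mul_eq_div]

theorem good_of_lt (hn : 1 ≤ n) {K : Set (Fin n → ℝ)} (hK : IsConvexBody K)
    (h : Dn K < simpC n) : Good K := ⟨hn, hK, h.le, fun h1 => absurd h1 h.ne⟩

theorem unc_step {p : ℕ} (hp : 11 ≤ p)
    (h : Real.exp (7 / 100 * ((p : ℝ) - 1)) * ((p : ℝ) + 1) ^ (2 * p + 1) <
      8 ^ p * (p.factorial : ℝ) ^ 2) :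
    Real.exp (7 / 100 * (((p + 1 : ℕ) : ℝ) - 1)) * (((p + 1 : ℕ) : ℝ) + 1) ^ (2 * (p + 1) + 1) <
      8 ^ (p + 1) * ((p + 1).factorial : ℝ) ^ 2 := by
  have hp' : (11 : ℝ) ≤ p := by exact_mod_cast hp
  set y : ℝ := 1 / (2 * (p : ℝ) + 3) with hy
  have h0 : 0 ≤ y := by rw [hy]; positivity
  have h1 : y ≤ 1 / 25 := by
    rw [hy]
    exact one_div_le_one_div_of_le (by norm_num) (by linarith)
  have h2 := ratio_le h0 (by linarith)
  have h3 : (1 + y) / (1 - y) = ((p : ℝ) + 2) / (p + 1) := by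
    rw [hy]
    have h4 : (p : ℝ) + 1 ≠ 0 := by positivity
    have h5 : 1 - 1 / (2 * (p : ℝ) + 3) = 2 * (p + 1) / (2 * p + 3) := by field_simp; ring
    have h6 : 1 + 1 / (2 * (p : ℝ) + 3) = 2 * (p + 2) / (2 * p + 3) := by field_simp; ring
    rw [h5, h6]
    field_simp
  rw [h3] at h2
  have h4 := pow_le_pow_left₀ (by positivity) h2 (2 * p + 3)
  rw [← Real.exp_nat_mul] at h4
  have h5 : ((2 * p + 3 : ℕ) : ℝ) * (2 * y + y ^ 3) = 2 + y ^ 2 := by
    push_cast
    have h6 : 2 * (p : ℝ) + 3 = 1 / y := by rw [hy]; field_simp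
    have h7 : y ≠ 0 := by rw [hy]; positivity
    rw [h6]
    field_simp
  rw [h5, div_pow] at h4
  have h6 : Real.exp (7 / 100) * Real.exp (2 + y ^ 2) ≤ 8 := by
    rw [← Real.exp_add]
    have h7 : y ^ 2 ≤ (1 / 25) ^ 2 := pow_le_pow_left₀ h0 h1 2
    have h8 : Real.exp (7 / 100 + (2 + y ^ 2)) ≤ Real.exp 1 ^ 2 * Real.exp 0.0716 := by
      rw [← Real.exp_nat_mul, ← Real.exp_add]
      refine Real.exp_le_exp.2 ?_
      norm_num at h7 ⊢
      linarith
    refine h8.trans ?_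
    have h9 : Real.exp 0.0716 ≤ 1.0743 := exp_small (by norm_num) (by norm_num) (by norm_num)
    have h10 : Real.exp 1 ^ 2 ≤ 2.7182818286 ^ 2 :=
      pow_le_pow_left₀ (Real.exp_pos 1).le Real.exp_one_lt_d9.le 2
    calc Real.exp 1 ^ 2 * Real.exp 0.0716 ≤ 2.7182818286 ^ 2 * 1.0743 :=
          mul_le_mul h10 h9 (Real.exp_pos _).le (by norm_num)
      _ ≤ 8 := by norm_num
  have hp1 : (0 : ℝ) < (p : ℝ) + 1 := by positivity
  have h7 : Real.exp (7 / 100) * ((p : ℝ) + 2) ^ (2 * p + 3) ≤ 8 * ((p : ℝ) + 1) ^ (2 * p + 3) := by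
    rw [div_le_iff₀ (by positivity)] at h4
    calc Real.exp (7 / 100) * ((p : ℝ) + 2) ^ (2 * p + 3)
        ≤ Real.exp (7 / 100) * (Real.exp (2 + y ^ 2) * ((p : ℝ) + 1) ^ (2 * p + 3)) :=
          mul_le_mul_of_nonneg_left h4 (Real.exp_pos _).le
      _ = Real.exp (7 / 100) * Real.exp (2 + y ^ 2) * ((p : ℝ) + 1) ^ (2 * p + 3) := by ring
      _ ≤ _ := mul_le_mul_of_nonneg_right h6 (by positivity)
  have h8 : Real.exp (7 / 100 * (((p + 1 : ℕ) : ℝ) - 1)) =
      Real.exp (7 / 100 * ((p : ℝ) - 1)) * Real.exp (7 / 100) := by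
    rw [← Real.exp_add]
    congr 1
    push_cast
    ring
  have h9 : (((p + 1 : ℕ) : ℝ) + 1) ^ (2 * (p + 1) + 1) = ((p : ℝ) + 2) ^ (2 * p + 3) := by
    push_cast
    ring
  rw [h8, h9, Nat.factorial_succ, pow_succ 8 p]
  push_cast
  calc Real.exp (7 / 100 * ((p : ℝ) - 1)) * Real.exp (7 / 100) * ((p : ℝ) + 2) ^ (2 * p + 3)
      = Real.exp (7 / 100 * ((p : ℝ) - 1)) *
          (Real.exp (7 / 100) * ((p : ℝ) + 2) ^ (2 * p + 3)) := by ring
    _ ≤ Real.exp (7 / 100 * ((p : ℝ) - 1)) * (8 * ((p : ℝ) + 1) ^ (2 * p + 3)) :=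
        mul_le_mul_of_nonneg_left h7 (Real.exp_pos _).le
    _ = 8 * ((p : ℝ) + 1) ^ 2 *
        (Real.exp (7 / 100 * ((p : ℝ) - 1)) * ((p : ℝ) + 1) ^ (2 * p + 1)) := by ring
    _ < 8 * ((p : ℝ) + 1) ^ 2 * (8 ^ p * (p.factorial : ℝ) ^ 2) :=
        mul_lt_mul_of_pos_left h (by positivity)
    _ = _ := by ring

theorem unc_num_aux {p : ℕ} (hp : 11 ≤ p) :
    Real.exp (7 / 100 * ((p : ℝ) - 1)) * ((p : ℝ) + 1) ^ (2 * p + 1) <
      8 ^ p * (p.factorial : ℝ) ^ 2 := by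
  induction p, hp using Nat.le_induction with
  | base =>
    have h1 : Real.exp (7 / 100 * (((11 : ℕ) : ℝ) - 1)) ≤ 2.0138 := by
      have e : (7 / 100 * (((11 : ℕ) : ℝ) - 1) : ℝ) = 0.7 := by norm_num
      rw [e]
      exact exp_small (by norm_num) (by norm_num) (by norm_num)
    have h2 : (0 : ℝ) ≤ (((11 : ℕ) : ℝ) + 1) ^ (2 * 11 + 1) := by positivity
    refine lt_of_le_of_lt (mul_le_mul_of_nonneg_right h1 h2) ?_
    norm_num [Nat.factorial]
  | succ p hp ih => exact unc_step hp ih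

theorem unc_num {q p : ℕ} (hq : 1 ≤ q) (hp : 5 * q + 6 ≤ p) :
    Real.exp (7 / 20 * ((q : ℝ) + 1)) * (((p : ℝ) + 1) / (8 * ((p : ℝ) + 2))) ^ p < simpC p := by
  rw [Sym.simpC_lt_iff]
  refine lt_of_le_of_lt (mul_le_mul_of_nonneg_right (Real.exp_le_exp.2 ?_) (by positivity))
    (unc_num_aux (by omega : 11 ≤ p))
  have : 5 * (q : ℝ) + 6 ≤ p := by exact_mod_cast hp
  linarith

theorem symIn_unc {p : ℕ} {U : Set (Fin p → ℝ)} (hU : CC.SymIn Finset.univ U) :
    IsConvexBody U ∧ Unc.Uncond U :=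
  ⟨hU.1, fun x hx y hy => hU.2 x hx y (fun i _ => hy i) fun i hi => absurd (Finset.mem_univ i) hi⟩

theorem unc_prod_lt {q p : ℕ} (hq : 1 ≤ q) (hp : 5 * q + 6 ≤ p) {K : Set (Fin q → ℝ)}
    {U : Set (Fin p → ℝ)} (hK : IsConvexBody K) (hU : CC.SymIn Finset.univ U) :
    Dn K * Dn U < simpC q * simpC p := by
  obtain ⟨hb, hu⟩ := symIn_unc hU
  have h1 := Dn_near_sharp hq hK
  have h2 : Dn U ≤ (((p : ℝ) + 1) / (8 * ((p : ℝ) + 2))) ^ p := Unc.unc_body (Unc.uncr_all p) hb hu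
  have h3 := unc_num hq hp
  have hC := simpC_pos q
  calc Dn K * Dn U ≤ (Real.exp (7 / 20 * ((q : ℝ) + 1)) * simpC q) *
        (((p : ℝ) + 1) / (8 * ((p : ℝ) + 2))) ^ p :=
        mul_le_mul h1 h2 (Dn_nonneg hb) (by positivity)
    _ = simpC q * (Real.exp (7 / 20 * ((q : ℝ) + 1)) *
        (((p : ℝ) + 1) / (8 * ((p : ℝ) + 2))) ^ p) := by ring
    _ < simpC q * simpC p := mul_lt_mul_of_pos_left h3 hC

/-- products of an arbitrary body and an unconditional body -/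
theorem prod_good {q p : ℕ} (hq : 1 ≤ q) (hp : 5 * q + 6 ≤ p) {K : Set (Fin q → ℝ)}
    {U : Set (Fin p → ℝ)} (hK : IsConvexBody K) (hU : CC.SymIn Finset.univ U) :
    IsConvexBody (prodBody K U) ∧ Dn (prodBody K U) < simpC (q + p) := by
  have h1 := unc_prod_lt hq hp hK hU
  have h2 := Dn_prod hK hU.1
  have h3 := body_prod hK hU.1
  refine ⟨h3, ?_⟩
  show Dn (directProd K U) < _
  rw [h2]
  exact h1.trans_le (simpC_mul_le q p).1

/-- free sums of an arbitrary body and an unconditional body -/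
theorem sum_good {q p : ℕ} (hq : 1 ≤ q) (hp : 5 * q + 6 ≤ p) {K : Set (Fin q → ℝ)}
    {U : Set (Fin p → ℝ)} (hK : IsConvexBody K) (hK0 : (0 : Fin q → ℝ) ∈ K)
    (hU : CC.SymIn Finset.univ U) :
    IsConvexBody (P254.freeSum K U) ∧ Dn (P254.freeSum K U) < simpC (q + p) := by
  have h1 := unc_prod_lt hq hp hK hU
  obtain ⟨hb, hu⟩ := symIn_unc hU
  have hU0 : (0 : Fin p → ℝ) ∈ U := by
    obtain ⟨x, hx⟩ := hb.2.2
    have hx' := interior_subset hx
    have hn : -x ∈ U := hu x hx' (-x) fun i => by simp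
    have := hb.1 hx' hn (show (0 : ℝ) ≤ 1 / 2 by norm_num) (show (0 : ℝ) ≤ 1 / 2 by norm_num)
      (by norm_num)
    convert this using 1
    ext i
    simp
  have hbody : IsConvexBody (P254.freeSum K U) := by
    rw [freeSum_eq hK.1 hb.1 hK0 hU0]
    refine body_of_vol (convex_sumS hK.1 hb.1) (isCompact_sumS hK.2.1 hb.2.1) ?_
    rw [vol_sumS hK.1 hK.2.1 hK0 hb.1 hb.2.1 hU0]
    exact mul_ne_zero (qq_ne q p) (mul_ne_zero (vol_pos hK).ne' (vol_pos hb).ne')
  obtain ⟨T, hT0, hT1, hD⟩ := Dn_sumS hq (by omega : 1 ≤ p) hK hK0 hb hU0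
  rw [← freeSum_eq hK.1 hb.1 hK0 hU0] at hD
  have hCq := simpC_pos q
  have hCp := simpC_pos p
  have hC := simpC_pos (q + p)
  have h0 : 0 ≤ Dn K * Dn U := mul_nonneg (Dn_nonneg hK) (Dn_nonneg hb)
  refine ⟨hbody, ?_⟩
  have h3 : Dn (P254.freeSum K U) * (simpC q * simpC p) < simpC (q + p) * (simpC q * simpC p) := by
    rw [hD, mul_comm (simpC (q + p))]
    refine mul_lt_mul_of_pos_right (lt_of_le_of_lt ?_ h1) hC
    exact mul_le_of_le_one_right h0 hT1
  exact lt_of_mul_lt_mul_right h3 (mul_pos hCq hCp).le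

theorem rot_good {m : ℕ} {K U : Set (Fin n → ℝ)} {T : Fin m → Finset (Fin n)} {t : ℝ}
    (hn : 1 ≤ n) (hU : IsConvexBody U) (hT : ∀ i j, i ≠ j → Disjoint (T i) (T j))
    (hR : ∀ i, RInv (T i) U) (ht : 0 < t)
    (h : Real.exp (7 / 20 * ((n : ℝ) + 1)) * ∏ i, RR (T i).card < t ^ (n + 2))
    (hF : CC.Fills t K U) : Good K := by
  obtain ⟨hK, A, b, hA, hsub, hvol⟩ := CC.Fills.out hF
  obtain ⟨hb, hD⟩ := Dn_aff hU hA b
  have h1 : Dn K ≤ Dn (aff A b '' U) / t ^ (n + 2) := Dn_fills hn hK hb hsub ht hvol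
  have h2 := rot_le hn hU hT hR
  have hC := simpC_pos n
  have ht2 : 0 < t ^ (n + 2) := by positivity
  refine good_of_lt hn hK (lt_of_le_of_lt h1 ?_)
  rw [hD, div_lt_iff₀ ht2]
  calc Dn U ≤ Real.exp (7 / 20 * ((n : ℝ) + 1)) * (∏ i, RR (T i).card) * simpC n := h2
    _ < t ^ (n + 2) * simpC n := mul_lt_mul_of_pos_right h hC
    _ = _ := by ring

theorem iso_lt_of {K S : Set (Fin n → ℝ)} (hn : 1 ≤ n) (hK : IsConvexBody K) (hS : IsSimplex S)
    (h : Dn K < simpC n) : isoConst K < isoConst S := by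
  have h1 := (good_of_lt hn hK h).iso hS
  refine lt_of_le_of_ne h1.1 fun h2 => ?_
  have h3 := h1.2.1 h2
  have h4 : Dn K = simpC n := by
    obtain ⟨A, b, hA, rfl⟩ := h3.exists_aff
    rw [← Dn_stdS hn]
    exact (Dn_aff body_stdS hA b).2
  exact h.ne h4

theorem simplex_pow {S : Set (Fin n → ℝ)} (hn : 1 ≤ n) (hS : IsSimplex S) :
    isoConst S ^ (2 * n) = simpC n := by
  rw [isoConst_simplex hS, isoConst_pow_eq hn body_stdS, Dn_stdS hn]

end Vale.Agent.P254.H242
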