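import Vale.Agent.P254.H242.Fib
import Vale.Agent.P254.H242.Top

/-!
P254: bodies with homothetic fibres: structure, and the exact comparison with the simplex.
-/

open MeasureTheory Set Matrix

namespace Vale.Agent.P254.H242

open FV US

variable {n q p : ℕ}

/-- the fibres over the first group of coordinates are homothetic to `U` -/
def Fbr (e : Fin n ≃ Fin q ⊕ Fin p) (U : Set (Fin p → ℝ)) (K : Set (Fin n → ℝ)) : Prop :=
  ∀ y : Fin q → ℝ, {x | sp e (y, x) ∈ K} = ∅ ∨
    ∃ r : ℝ, 0 ≤ r ∧ {x | sp e (y, x) ∈ K} = {x | gauge U x ≤ r}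

theorem exists_u0 (hp : 1 ≤ p) {g : (Fin p → ℝ) → ℝ} (hg : IsG g) : ∃ u, g u = 1 ∧ u ≠ 0 := by
  have h1 : (Pi.single ⟨0, hp⟩ 1 : Fin p → ℝ) ≠ 0 := by
    intro h
    have := congrFun h ⟨0, hp⟩
    simp at this
  have h2 : 0 < g (Pi.single ⟨0, hp⟩ 1) := by
    by_contra h
    exact h1 ((hg.le_zero_iff _).1 (not_lt.1 h))
  refine ⟨(g (Pi.single ⟨0, hp⟩ 1))⁻¹ • Pi.single ⟨0, hp⟩ 1, ?_, ?_⟩
  · rw [hg.smul _ (inv_nonneg.2 h2.le), inv_mul_cancel₀ h2.ne']
  · exact smul_ne_zero (inv_ne_zero h2.ne') h1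

theorem mem_HH {e : Fin n ≃ Fin q ⊕ Fin p} {U : Set (Fin p → ℝ)} {K : Set (Fin n → ℝ)}
    (hg : IsG (gauge U)) (hF : Fbr e U K) {u : Fin p → ℝ} (hu : gauge U u = 1) {y : Fin q → ℝ}
    {x : Fin p → ℝ} : (y, gauge U x) ∈ HH e K u ↔ sp e (y, x) ∈ K := by
  have h0 : 0 ≤ gauge U x := gauge_nonneg x
  have h1 : gauge U (gauge U x • u) = gauge U x := by
    rw [hg.smul _ h0, hu, mul_one]
  rcases hF y with h | ⟨r, hr, h⟩
  · have h2 : ∀ x', sp e (y, x') ∉ K := fun x' hx' => by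
      have : x' ∈ {x | sp e (y, x) ∈ K} := hx'
      rw [h] at this
      exact this
    exact ⟨fun h3 => absurd h3.2 (h2 _), fun h3 => absurd h3 (h2 _)⟩
  · have h2 : ∀ x', sp e (y, x') ∈ K ↔ gauge U x' ≤ r := fun x' => by
      have : x' ∈ {x | sp e (y, x) ∈ K} ↔ x' ∈ {x | gauge U x ≤ r} := by rw [h]
      exact this
    rw [h2]
    constructor
    · rintro ⟨-, h3⟩
      have h4 := (h2 _).1 h3
      rwa [h1] at h4
    · intro h3
      exact ⟨h0, (h2 _).2 (by rw [h1]; exact h3)⟩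

theorem hg_HH_fbr {e : Fin n ≃ Fin q ⊕ Fin p} {U : Set (Fin p → ℝ)} {K : Set (Fin n → ℝ)}
    (hK : IsConvexBody K) (hg : IsG (gauge U)) (hF : Fbr e U K) {u : Fin p → ℝ}
    (hu : gauge U u = 1) (hu0 : u ≠ 0) : HG (HH e K u) := by
  refine ⟨?_, ?_, fun y r h => h.1, ?_⟩
  · intro w hw w' hw' a b ha hb hab
    refine ⟨?_, ?_⟩
    · show 0 ≤ a * w.2 + b * w'.2
      have := mul_nonneg ha hw.1
      have := mul_nonneg hb hw'.1
      linarith
    · have h3 := hK.1 hw.2 hw'.2 ha hb hab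
      rw [← sp_lin] at h3
      convert h3 using 2
      refine Prod.ext rfl ?_
      funext j
      show (a * w.2 + b * w'.2) * u j = a * (w.2 * u j) + b * (w'.2 * u j)
      ring
  · refine Metric.isCompact_of_isClosed_isBounded ?_ ?_
    · refine (isClosed_le continuous_const continuous_snd).inter (hK.2.1.isClosed.preimage ?_)
      exact (cont_sp e).comp (by fun_prop)
    · obtain ⟨R, hR2⟩ := hK.2.1.isBounded.subset_closedBall (0 : Fin n → ℝ)
      have hun : 0 < ‖u‖ := norm_pos_iff.2 hu0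
      refine (Metric.isBounded_closedBall (x := (0 : (Fin q → ℝ) × ℝ))
        (r := max R (R / ‖u‖))).subset fun w hw => ?_
      have h3 := hR2 hw.2
      rw [mem_closedBall_zero_iff] at h3 ⊢
      have h4 := fun i => (norm_le_pi_norm (sp e (w.1, w.2 • u)) i).trans h3
      have hR0 : 0 ≤ R := (norm_nonneg _).trans h3
      refine (Prod.norm_def w).le.trans (max_le ?_ ?_)
      · refine ((pi_norm_le_iff_of_nonneg hR0).2 fun j => ?_).trans (le_max_left _ _)
        have := h4 (e.symm (Sum.inl j))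
        rwa [sp_inl] at this
      · refine le_trans ?_ (le_max_right _ _)
        rw [le_div_iff₀ hun, ← norm_smul]
        refine (pi_norm_le_iff_of_nonneg hR0).2 fun j => ?_
        have := h4 (e.symm (Sum.inr j))
        rwa [sp_inr] at this
  · rintro y r s ⟨hr, hy⟩ hs hsr
    refine ⟨hs, ?_⟩
    change 0 ≤ r at hr
    change sp e (y, r • u) ∈ K at hy
    show sp e (y, s • u) ∈ K
    rcases hF y with h | ⟨r', hr', h⟩
    · have : r • u ∈ {x | sp e (y, x) ∈ K} := hy
      rw [h] at this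
      exact absurd this (notMem_empty _)
    · have h2 : ∀ x', sp e (y, x') ∈ K ↔ gauge U x' ≤ r' := fun x' => by
        have : x' ∈ {x | sp e (y, x) ∈ K} ↔ x' ∈ {x | gauge U x ≤ r'} := by rw [h]
        exact this
      rw [h2, hg.smul _ hr, hu, mul_one] at hy
      rw [h2, hg.smul _ hs, hu, mul_one]
      exact hsr.trans hy

/-- **bodies with homothetic fibres**: `D(K) ≤ e^(3 - 33 q / 20) D(U)` -/
theorem Dn_fbr_le {e : Fin n ≃ Fin q ⊕ Fin p} (hp : 2 ≤ p) {U : Set (Fin p → ℝ)}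
    (hU : IsConvexBody U) (hc : centroid U = 0) {K : Set (Fin n → ℝ)} (hK : IsConvexBody K)
    (hF : Fbr e U K) : Dn K ≤ Real.exp (3 - 33 / 20 * q) * Dn U := by
  obtain ⟨hg, hb⟩ := isG_gauge hU (by
    have := centroid_mem_interior hU
    rwa [hc] at this)
  obtain ⟨u, hu, hu0⟩ := exists_u0 (by omega : 1 ≤ p) hg
  have hH := hg_HH_fbr hK hg hF hu hu0
  have hKe : fb e (HH e K u) (gauge U) = K := by
    ext z
    show (yp e z, gauge U (xp e z)) ∈ HH e K u ↔ z ∈ K
    rw [mem_HH hg hF hu, sp_yx]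
  have h := Dn_fb_le e hH hg hp (fun j => by rw [hb]; exact cen_int hU hc j) (by rwa [hb])
    (by rw [hKe]; exact (vol_pos hK).ne')
  rwa [hKe, hb] at h

theorem body_ball : IsConvexBody (ball (NN : (Fin p → ℝ) → ℝ)) := by
  rcases Nat.eq_zero_or_pos p with rfl | hp
  · have e : ball (NN : (Fin 0 → ℝ) → ℝ) = univ := by
      ext x
      simp [ball, NN]
    rw [e]
    exact ⟨convex_univ, isCompact_univ, by simp⟩
  · refine body_of_vol ?_ (isG_NN.compact_le 1) (by rw [vol_ball hp]; exact (kap_pos p).ne')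
    intro x hx y hy a b ha hb hab
    show NN (a • x + b • y) ≤ 1
    refine (isG_NN.add _ _).trans ?_
    rw [isG_NN.smul a ha, isG_NN.smul b hb]
    have hx' : NN x ≤ 1 := hx
    have hy' : NN y ≤ 1 := hy
    nlinarith

/-- one block of rotations -/
theorem Dn_rot_le {T : Finset (Fin n)} (hT : 2 ≤ T.card) {K : Set (Fin n → ℝ)}
    (hK : IsConvexBody K) (hR : RInv T K) : Dn K ≤
      Real.exp (3 - 33 / 20 * (n - T.card)) * (RR T.card * simpC T.card) := by
  obtain ⟨q, e, h1, h2⟩ := exists_split T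
  have hT1 : 1 ≤ T.card := by omega
  have hH := hg_HH hK hR h1 h2 ⟨0, hT1⟩
  have hKe := fb_HH hR h1 h2 ⟨0, hT1⟩
  have h := Dn_fb_le e hH isG_NN hT ball_cen body_ball (by rw [hKe]; exact (vol_pos hK).ne')
  rw [hKe] at h
  have hq : (q : ℝ) = n - T.card := by
    have := Fintype.card_congr e
    simp only [Fintype.card_fin, Fintype.card_sum] at this
    have h3 : (n : ℝ) = q + T.card := by exact_mod_cast this
    linarith
  rw [hq] at h
  exact h.trans (mul_le_mul_of_nonneg_left (Dn_ball hT1) (Real.exp_pos _).le)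

end Vale.Agent.P254.H242
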