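import Vale.Agent.P254.H242.Main2
import Vale.Agent.P254.H375.Pack

/-!
P254: the final theorem.
-/

open MeasureTheory Set Matrix

namespace Vale.Agent.P254.H242

open CC FV US

theorem part_all {n : ℕ} {K S : Set (Fin n → ℝ)} (hn : 1 ≤ n) (hK : Body K) (hS : Simp S) :
    iso K ≤ Real.exp (7 / 40 * (((n : ℝ) + 1) / n)) * iso S ∧ iso K ≤ Real.exp (-(33 / 40)) ∧
      iso S ^ (2 * n) = simplexPow n := by
  rw [iso_eq, iso_eq, simplexPow_eq]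
  exact ⟨(near_sharp hn hK hS).1, (near_sharp hn hK hS).2, simplex_pow hn hS⟩

theorem part_class {n : ℕ} {K S : Set (Fin n → ℝ)} (hK : Cls2 n K) (hS : Simp S) :
    iso K ≤ iso S ∧ (iso K = iso S ↔ Simp K) := by
  rw [iso_eq, iso_eq]
  exact (Cls2.good hK).iso hS

theorem part_rot {n m : ℕ} {K S : Set (Fin n → ℝ)} {T : Fin m → Finset (Fin n)} (hn : 1 ≤ n)
    (hK : Body K) (hS : Simp S) (hT : ∀ i j, i ≠ j → Disjoint (T i) (T j))
    (hR : ∀ i, RotIn (T i) K) :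
    iso K ^ (2 * n) ≤ Real.exp (7 / 20 * ((n : ℝ) + 1)) * (∏ i, ballRatio (T i).card) *
        iso S ^ (2 * n) ∧
      ((∃ i, n + 13 ≤ 3 * (T i).card ∨ n + 5 ≤ 2 * (T i).card) ∨
        (∀ i, 4 ≤ (T i).card) ∧ 15 * (n + 1) ≤ n + 15 * ∑ i, (T i).card → iso K < iso S) := by
  rw [iso_eq, iso_eq, isoConst_pow_eq hn hK, simplex_pow hn hS]
  have h1 := rot_le hn hK hT hR
  refine ⟨h1, fun h => iso_lt_of hn hK hS ?_⟩
  have hC := simpC_pos n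
  have key : (∃ i, n + 5 ≤ 2 * (T i).card) ∨
      (∀ i, 4 ≤ (T i).card) ∧ 15 * (n + 1) ≤ n + 15 * ∑ i, (T i).card → Dn K < simpC n := by
    intro h2
    exact lt_of_le_of_lt h1 (mul_lt_of_lt_one_left hC (rot_num hn h2))
  rcases h with ⟨i, h | h⟩ | h
  · exact rotOne_lt h hK (hR i)
  · exact key (Or.inl ⟨i, h⟩)
  · exact key (Or.inr h)

theorem part_fib {q p : ℕ} {K S : Set (Fin (q + p) → ℝ)} {U : Set (Fin p → ℝ)} (hp : 2 ≤ p)
    (hK : Fibred U K) (hS : Simp S) :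
    iso K ^ (2 * (q + p)) ≤ Real.exp (3 - 33 / 20 * q) * iso U ^ (2 * p) ∧
      (5 * q + 44 ≤ p → SymIn Finset.univ U → iso K < iso S) := by
  have hn : 1 ≤ q + p := by omega
  rw [iso_eq, iso_eq, iso_eq, isoConst_pow_eq hn hK.2.2.1, isoConst_pow_eq (by omega) hK.1]
  exact ⟨hK.le hp, fun h hU => iso_lt_of hn hK.2.2.1 hS (fibUnc_lt h hU hK)⟩

theorem part_prod {q p : ℕ} {K : Set (Fin q → ℝ)} {U : Set (Fin p → ℝ)}
    {S : Set (Fin (q + p) → ℝ)} (hq : 1 ≤ q) (hp : 5 * q + 6 ≤ p) (hK : Body K)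
    (hU : SymIn Finset.univ U) (hS : Simp S) :
    iso (prodBody K U) < iso S ∧ ((fun _ => 0) ∈ K → iso (freeSum K U) < iso S) := by
  have hn : 1 ≤ q + p := by omega
  rw [iso_eq, iso_eq, iso_eq]
  obtain ⟨h1, h2⟩ := prod_good hq hp hK hU
  refine ⟨iso_lt_of hn h1 hS h2, fun h0 => ?_⟩
  obtain ⟨h3, h4⟩ := sum_good hq hp hK h0 hU
  exact iso_lt_of hn h3 hS h4

theorem part_red {n : ℕ} (hn : 1 ≤ n) {δ : ℝ}
    (h : ∀ f : (Fin (n + 1) → ℝ) → ℝ, H375.LogConcave f → ∫ x, f x = 1 →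
      (1 - δ) * ((n : ℝ) + 1) + 1 / 2 * Real.log (H375.cov f).det ≤ H375.entropy f)
    {K S : Set (Fin n → ℝ)} (hK : Body K) (hS : Simp S) :
    iso K ≤ Real.exp (δ * (((n : ℝ) + 1) / n)) * iso S := by
  rw [iso_eq, iso_eq]
  exact H375.reduction n hn δ h K S hK hS

end Vale.Agent.P254.H242
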