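import Vale.Agent.P254.H242.Exch
import Vale.Agent.P254.H242.Bor
import Mathlib.Analysis.SpecialFunctions.Pow.Integral

/-!
P254: the moments of the radius function of the fibres.
-/

open MeasureTheory Set

namespace Vale.Agent.P254.H242

variable {q : ℕ} {H : Set ((Fin q → ℝ) × ℝ)}

theorem HG.slice_compact (hH : HG H) (y : Fin q → ℝ) : IsCompact ({r | (y, r) ∈ H} : Set ℝ) := by
  have h2 : ({r | (y, r) ∈ H} : Set ℝ) = Prod.snd '' (H ∩ {w | w.1 = y}) := by
    ext r
    constructor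
    · intro hr
      exact ⟨(y, r), ⟨hr, rfl⟩, rfl⟩
    · rintro ⟨⟨y', r'⟩, ⟨hr, h3⟩, rfl⟩
      have h3' : y' = y := h3
      subst h3'
      exact hr
  rw [h2]
  exact (hH.cpt.inter_right (isClosed_eq continuous_fst continuous_const)).image continuous_snd

theorem rho_nonneg (hH : HG H) (y : Fin q → ℝ) : 0 ≤ rho H y :=
  Real.sSup_nonneg fun r hr => hH.nn y r hr

theorem le_rho (hH : HG H) {y : Fin q → ℝ} {r : ℝ} (h : (y, r) ∈ H) : r ≤ rho H y :=
  le_csSup (hH.slice_compact y).bddAbove h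

theorem rho_mem (hH : HG H) {y : Fin q → ℝ} (h : 0 < rho H y) : (y, rho H y) ∈ H := by
  refine (hH.slice_compact y).sSup_mem ?_
  rw [nonempty_iff_ne_empty]
  intro h0
  unfold rho at h
  rw [h0, Real.sSup_empty] at h
  exact lt_irrefl _ h

theorem le_rho_iff (hH : HG H) {y : Fin q → ℝ} {r : ℝ} (hr : 0 < r) :
    r ≤ rho H y ↔ (y, r) ∈ H :=
  ⟨fun h => hH.down _ _ _ (rho_mem hH (hr.trans_le h)) hr.le h, fun h => le_rho hH h⟩

theorem set_eq (hH : HG H) {r : ℝ} (hr : 0 < r) :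
    {y : Fin q → ℝ | r ≤ rho H y} = {y | (y, r) ∈ H} := by
  ext y
  exact le_rho_iff hH hr

theorem isClosed_set (hH : HG H) (r : ℝ) : IsClosed {y : Fin q → ℝ | (y, r) ∈ H} :=
  hH.cpt.isClosed.preimage (by fun_prop : Continuous fun y : Fin q → ℝ => (y, r))

theorem meas_rho (hH : HG H) : Measurable (rho H) := by
  refine measurable_of_Ici fun r => ?_
  rcases le_or_gt r 0 with hr | hr
  · have : rho H ⁻¹' Ici r = univ := by
      ext y
      simp only [mem_preimage, mem_Ici, mem_univ, iff_true]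
      exact hr.trans (rho_nonneg hH y)
    rw [this]
    exact MeasurableSet.univ
  · have : rho H ⁻¹' Ici r = {y | (y, r) ∈ H} := set_eq hH hr
    rw [this]
    exact (isClosed_set hH r).measurableSet

theorem exists_bd (hH : HG H) : ∃ R : ℝ, 0 < R ∧ ∀ y r, (y, r) ∈ H → ‖y‖ ≤ R ∧ r ≤ R := by
  obtain ⟨R, hR⟩ := hH.cpt.isBounded.subset_closedBall (0 : (Fin q → ℝ) × ℝ)
  refine ⟨max R 1, lt_max_of_lt_right one_pos, fun y r h => ?_⟩
  have h1 := hR h
  rw [mem_closedBall_zero_iff] at h1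
  exact ⟨((norm_fst_le _).trans h1).trans (le_max_left _ _),
    ((le_abs_self _).trans ((norm_snd_le _).trans h1)).trans (le_max_left _ _)⟩

theorem rho_le {R : ℝ} (hH : HG H) (hR0 : 0 < R) (hR : ∀ y r, (y, r) ∈ H → ‖y‖ ≤ R ∧ r ≤ R)
    (y : Fin q → ℝ) : rho H y ≤ R := by
  rcases (rho_nonneg hH y).eq_or_lt with h | h
  · rw [← h]; exact hR0.le
  · exact (hR _ _ (rho_mem hH h)).2

theorem rho_zero {R : ℝ} (hH : HG H) (hR : ∀ y r, (y, r) ∈ H → ‖y‖ ≤ R ∧ r ≤ R)
    {y : Fin q → ℝ} (hy : R < ‖y‖) : rho H y = 0 := by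
  rcases (rho_nonneg hH y).eq_or_lt with h | h
  · exact h.symm
  · exact absurd (hR _ _ (rho_mem hH h)).1 (not_le.2 hy)

/-- the measure of the level sets -/
noncomputable def lev (H : Set ((Fin q → ℝ) × ℝ)) (r : ℝ) : ℝ :=
  (volume {y : Fin q → ℝ | r ≤ rho H y}).toReal

theorem lev_sub {R : ℝ} (hH : HG H) (hR : ∀ y r, (y, r) ∈ H → ‖y‖ ≤ R ∧ r ≤ R) {r : ℝ}
    (hr : 0 < r) : {y : Fin q → ℝ | r ≤ rho H y} ⊆ Metric.closedBall 0 R := by
  rw [set_eq hH hr]
  intro y hy
  rw [mem_closedBall_zero_iff]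
  exact (hR y r hy).1

theorem lev_fin (hH : HG H) {r : ℝ} (hr : 0 < r) :
    volume {y : Fin q → ℝ | r ≤ rho H y} ≠ ⊤ := by
  obtain ⟨R, _, hR⟩ := exists_bd hH
  exact ((measure_mono (lev_sub hH hR hr)).trans_lt
    (isCompact_closedBall (0 : Fin q → ℝ) R).measure_lt_top).ne

theorem lc1_lev (hH : HG H) : ∃ R B : ℝ, LC1 (lev H) R B := by
  obtain ⟨R, hR0, hR⟩ := exists_bd hH
  refine ⟨R, (volume (Metric.closedBall (0 : Fin q → ℝ) R)).toReal, ?_, ?_, ?_, ?_, ?_⟩
  · intro r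
    exact ENNReal.toReal_nonneg
  · intro r hr
    have : {y : Fin q → ℝ | r ≤ rho H y} = ∅ := by
      ext y
      simp only [mem_ofPred_eq, mem_empty_iff_false, iff_false, not_le]
      exact (rho_le hH hR0 hR y).trans_lt hr
    simp [lev, this]
  · intro r hr
    exact ENNReal.toReal_mono (isCompact_closedBall (0 : Fin q → ℝ) R).measure_lt_top.ne
      (measure_mono (lev_sub hH hR hr))
  · have ha : Antitone fun r : ℝ => volume {y : Fin q → ℝ | r ≤ rho H y} :=
      fun r s hrs => measure_mono fun y hy => le_trans hrs hy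
    exact ha.measurable.ennreal_toReal
  · intro r s t hr hs ht0 ht1
    have h1 := Unc.bm_mul (s := 1 - t) (t := t) (by linarith) ht0 (by ring)
      (isClosed_set hH r).measurableSet (isClosed_set hH s).measurableSet
      (isClosed_set hH ((1 - t) * r + t * s)).measurableSet (by
        intro a ha b hb
        exact hH.conv ha hb (by linarith : (0 : ℝ) ≤ 1 - t) ht0.le (by ring))
    have h2 : 0 < (1 - t) * r + t * s := by
      have := mul_pos (by linarith : 0 < 1 - t) hr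
      have := mul_pos ht0 hs
      linarith
    have h3 := ENNReal.toReal_mono (by rw [← set_eq hH h2]; exact lev_fin hH h2) h1
    rw [ENNReal.toReal_mul, ← ENNReal.toReal_rpow, ← ENNReal.toReal_rpow] at h3
    unfold lev
    rw [set_eq hH hr, set_eq hH hs, set_eq hH h2]
    exact h3

theorem intg_rho (hH : HG H) {m : ℕ} (hm : 1 ≤ m) : Integrable fun y => rho H y ^ m := by
  obtain ⟨R, hR0, hR⟩ := exists_bd hH
  have h1 : IntegrableOn (fun y => rho H y ^ m) (Metric.closedBall (0 : Fin q → ℝ) R) := by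
    refine Measure.integrableOn_of_bounded (M := R ^ m)
      (isCompact_closedBall (0 : Fin q → ℝ) R).measure_lt_top.ne
      ((meas_rho hH).pow_const m).aestronglyMeasurable (Filter.Eventually.of_forall fun y => ?_)
    rw [Real.norm_eq_abs, abs_of_nonneg (pow_nonneg (rho_nonneg hH y) m)]
    exact pow_le_pow_left₀ (rho_nonneg hH y) (rho_le hH hR0 hR y) m
  refine (integrableOn_iff_integrable_of_support_subset fun y hy => ?_).1 h1
  rw [mem_closedBall_zero_iff]
  by_contra h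
  exact hy (by
    show rho H y ^ m = 0
    rw [rho_zero hH hR (not_le.1 h), zero_pow (by omega)])

/-- layer cake -/
theorem mom_eq (hH : HG H) (m : ℕ) : ∫ y, rho H y ^ (m + 1) = (m + 1) * Nm (lev H) m := by
  have h1 := lintegral_rpow_eq_lintegral_meas_le_mul (μ := (volume : Measure (Fin q → ℝ)))
    (f := rho H) (Filter.Eventually.of_forall (rho_nonneg hH)) (meas_rho hH).aemeasurable
    (p := ((m + 1 : ℕ) : ℝ)) (by positivity)
  have h2 : ∫ y, rho H y ^ (m + 1) = (∫⁻ y, ENNReal.ofReal (rho H y ^ ((m + 1 : ℕ) : ℝ))).toReal := by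
    simp_rw [Real.rpow_natCast]
    exact integral_eq_lintegral_of_nonneg_ae
      (Filter.Eventually.of_forall fun y => pow_nonneg (rho_nonneg hH y) _)
      (intg_rho hH (by omega)).aestronglyMeasurable
  obtain ⟨R, B, hl⟩ := lc1_lev hH
  have h3 : Nm (lev H) m = (∫⁻ t in Ioi (0 : ℝ), volume {y : Fin q → ℝ | t ≤ rho H y} *
      ENNReal.ofReal (t ^ (((m + 1 : ℕ) : ℝ) - 1))).toReal := by
    unfold Nm
    rw [integral_eq_lintegral_of_nonneg_ae]
    · congr 1
      refine setLIntegral_congr_fun measurableSet_Ioi fun t ht => ?_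
      have ht' : (0 : ℝ) < t := ht
      have e : ((m + 1 : ℕ) : ℝ) - 1 = m := by push_cast; ring
      show ENNReal.ofReal (t ^ m * lev H t) = _
      rw [e, Real.rpow_natCast, ENNReal.ofReal_mul (pow_nonneg ht'.le m), lev,
        ENNReal.ofReal_toReal (lev_fin hH ht'), mul_comm]
    · filter_upwards [ae_restrict_mem measurableSet_Ioi] with t ht
      exact mul_nonneg (pow_nonneg (le_of_lt ht) m) (hl.nonneg t)
    · exact (hl.intg m).aestronglyMeasurable
  rw [h2, h1, h3, ENNReal.toReal_mul, ENNReal.toReal_ofReal (by positivity)]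
  push_cast
  ring

/-- the three moments inequality -/
theorem mom_borell (hH : HG H) {p : ℕ} (hp : 2 ≤ p) (h : 0 < ∫ y, rho H y ^ p) :
    (∫ y, rho H y ^ (p + 2)) * (∫ y, rho H y ^ (p - 1)) ^ 2 ≤
      (∫ y, rho H y ^ p) ^ 3 * (((p : ℝ) + 1) * (p + 2) / p ^ 2) := by
  obtain ⟨a, rfl⟩ : ∃ a, p = a + 2 := ⟨p - 2, by omega⟩
  obtain ⟨R, B, hl⟩ := lc1_lev hH
  have e1 : a + 2 + 2 = (a + 3) + 1 := by omega
  have e2 : a + 2 - 1 = a + 1 := by omega
  have e3 : a + 2 = (a + 1) + 1 := by omega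
  have h1 := mom_eq hH (a + 3)
  have h2 := mom_eq hH a
  have h3 := mom_eq hH (a + 1)
  rw [e1, e2, h1, h2]
  rw [e3] at h ⊢
  rw [h3] at h ⊢
  have hN0 : 0 ≤ Nm (lev H) a := setIntegral_nonneg measurableSet_Ioi fun t ht =>
    mul_nonneg (pow_nonneg (le_of_lt ht) a) (hl.nonneg t)
  have hN3 : 0 ≤ Nm (lev H) (a + 3) := setIntegral_nonneg measurableSet_Ioi fun t ht =>
    mul_nonneg (pow_nonneg (le_of_lt ht) _) (hl.nonneg t)
  have hN1 : 0 ≤ Nm (lev H) (a + 1) := setIntegral_nonneg measurableSet_Ioi fun t ht =>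
    mul_nonneg (pow_nonneg (le_of_lt ht) _) (hl.nonneg t)
  rcases hN0.eq_or_lt with h4 | h4
  · rw [← h4]
    simp only [mul_zero, ne_eq, OfNat.ofNat_ne_zero, not_false_eq_true, zero_pow]
    positivity
  · rcases hN3.eq_or_lt with h5 | h5
    · rw [← h5, mul_zero, zero_mul]
      positivity
    · have key := hl.borell a h4 h5
      have e4 : (((a + 3 : ℕ) : ℝ) + 1) * Nm (lev H) (a + 3) * (((a : ℝ) + 1) * Nm (lev H) a) ^ 2 =
          ((a : ℝ) + 4) * ((a : ℝ) + 1) ^ 2 * (Nm (lev H) (a + 3) * Nm (lev H) a ^ 2) := by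
        push_cast
        ring
      rw [e4]
      have h6 : 0 ≤ ((a : ℝ) + 4) * ((a : ℝ) + 1) ^ 2 := by positivity
      refine (mul_le_mul_of_nonneg_left key h6).trans (le_of_eq ?_)
      push_cast
      field_simp
      ring

end Vale.Agent.P254.H242
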