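import Vale.Agent.P254.H242.Num2
import Vale.Agent.P254.H242.Fib2
import Vale.Agent.P254.H375.Sharp
import Vale.Agent.P254.H375.Equiv

/-!
P254: bodies with homothetic fibres, the final theorems.
-/

open MeasureTheory Set Matrix

namespace Vale.Agent.P254.H242

open CC FV US

variable {n q p : ℕ}

theorem simplexPow_eq (n : ℕ) : simplexPow n = simpC n := by
  unfold simplexPow simpC
  congr 1
  rw [mul_pow, pow_succ]
  ring

theorem sp_append (y : Fin q → ℝ) (x : Fin p → ℝ) :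
    sp finSumFinEquiv.symm (y, x) = Fin.append y x := by
  funext i
  refine Fin.addCases (fun j => ?_) (fun j => ?_) i
  · have h := sp_inl (finSumFinEquiv.symm : Fin (q + p) ≃ Fin q ⊕ Fin p) (y, x) j
    simpa using h
  · have h := sp_inr (finSumFinEquiv.symm : Fin (q + p) ≃ Fin q ⊕ Fin p) (y, x) j
    simpa using h

theorem zero_mem_int {U : Set (Fin p → ℝ)} (hU : IsConvexBody U) (hc : ∀ j, cen U j = 0) :
    centroid U = 0 ∧ (0 : Fin p → ℝ) ∈ interior U := by
  have h1 : centroid U = 0 := by rw [← cen_eq]; exact funext hc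
  exact ⟨h1, h1 ▸ centroid_mem_interior hU⟩

theorem mem_smul_iff {U : Set (Fin p → ℝ)} (hU : IsConvexBody U) (h0 : (0 : Fin p → ℝ) ∈ interior U)
    {r : ℝ} (hr : 0 ≤ r) (x : Fin p → ℝ) :
    (∃ u ∈ U, x = fun i => r * u i) ↔ gauge U x ≤ r := by
  obtain ⟨hg, hb⟩ := isG_gauge hU h0
  constructor
  · rintro ⟨u, hu, rfl⟩
    have h1 : gauge U u ≤ 1 := by
      rw [← hb] at hu
      exact hu
    have h2 : gauge U (fun i => r * u i) = r * gauge U u := hg.smul r hr u
    rw [h2]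
    nlinarith [gauge_nonneg (s := U) u]
  · intro h
    rcases hr.eq_or_lt with rfl | hr
    · have hx : x = 0 := (hg.le_zero_iff _).1 h
      refine ⟨0, interior_subset h0, ?_⟩
      rw [hx]
      funext i
      simp
    · refine ⟨r⁻¹ • x, ?_, ?_⟩
      · rw [← hb]
        show gauge U (r⁻¹ • x) ≤ 1
        rw [hg.smul _ (inv_nonneg.2 hr.le), inv_mul_le_iff₀ hr, mul_one]
        exact h
      · funext i
        simp [mul_inv_cancel_left₀ hr.ne']

theorem Fibred.fbr {U : Set (Fin p → ℝ)} {K : Set (Fin (q + p) → ℝ)} (h : Fibred U K) :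
    Fbr finSumFinEquiv.symm U K := by
  obtain ⟨hU, hc, hK, hf⟩ := h
  obtain ⟨h1, h0⟩ := zero_mem_int hU hc
  intro y
  rcases hf y with h2 | ⟨r, hr, h2⟩
  · left
    ext x
    simp only [mem_ofPred_eq, mem_empty_iff_false, iff_false, sp_append]
    exact h2 x
  · right
    refine ⟨r, hr, ?_⟩
    ext x
    simp only [mem_ofPred_eq, sp_append]
    rw [h2, mem_smul_iff hU h0 hr]

/-- **bodies with homothetic fibres** -/
theorem Fibred.le {U : Set (Fin p → ℝ)} {K : Set (Fin (q + p) → ℝ)} (h : Fibred U K)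
    (hp : 2 ≤ p) : Dn K ≤ Real.exp (3 - 33 / 20 * q) * Dn U :=
  Dn_fbr_le hp h.1 (zero_mem_int h.1 h.2.1).1 h.2.2.1 h.fbr

theorem fibUnc_lt {U : Set (Fin p → ℝ)} {K : Set (Fin (q + p) → ℝ)} (hp : 5 * q + 44 ≤ p)
    (hU : CC.SymIn Finset.univ U) (hK : Fibred U K) : Dn K < simpC (q + p) := by
  obtain ⟨hb, hu⟩ := symIn_unc hU
  have h2 : Dn U ≤ (((p : ℝ) + 1) / (8 * ((p : ℝ) + 2))) ^ p := Unc.unc_body (Unc.uncr_all p) hb hu
  exact lt_of_le_of_lt ((hK.le (by omega)).trans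
    (mul_le_mul_of_nonneg_left h2 (Real.exp_pos _).le)) (fibUnc_num hp)

theorem rotOne_lt {T : Finset (Fin n)} (hn : n + 13 ≤ 3 * T.card) {K : Set (Fin n → ℝ)}
    (hK : IsConvexBody K) (hR : RInv T K) : Dn K < simpC n := by
  have hc : T.card ≤ n := (Finset.card_le_univ _).trans (by simp)
  obtain ⟨q, hq⟩ : ∃ q, n = q + T.card := ⟨n - T.card, by omega⟩
  have h1 := Dn_rot_le (by omega) hK hR
  have h2 := rot1_num (q := q) (p := T.card) (by omega)
  have h3 : (n : ℝ) - T.card = q := by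
    have : (n : ℝ) = q + T.card := by exact_mod_cast hq
    linarith
  rw [h3] at h1
  rw [← hq] at h2
  exact lt_of_le_of_lt h1 h2

theorem Dn_eq_iso (hp : 1 ≤ p) {U : Set (Fin p → ℝ)} (hU : IsConvexBody U) :
    iso U ^ (2 * p) = Dn U := by
  rw [iso_eq, isoConst_pow_eq hp hU]

theorem fib_good {K V : Set (Fin (q + p) → ℝ)} {U : Set (Fin p → ℝ)} {t : ℝ} (hp : 2 ≤ p)
    (hV : Fibred U V) (ht : 0 < t) (h : Real.exp (3 - 33 / 20 * q) * iso U ^ (2 * p) <
      t ^ (q + p + 2) * simplexPow (q + p)) (hF : CC.Fills t K V) : Good K := by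
  obtain ⟨hK, A, b, hA, hsub, hvol⟩ := CC.Fills.out hF
  obtain ⟨hb, hD⟩ := Dn_aff hV.2.2.1 hA b
  have hn : 1 ≤ q + p := by omega
  have h1 : Dn K ≤ Dn (aff A b '' V) / t ^ (q + p + 2) := Dn_fills hn hK hb hsub ht hvol
  have h2 := hV.le hp
  rw [Dn_eq_iso (by omega) hV.1, simplexPow_eq] at h
  have ht2 : 0 < t ^ (q + p + 2) := by positivity
  refine good_of_lt hn hK (lt_of_le_of_lt h1 ?_)
  rw [hD, div_lt_iff₀ ht2, mul_comm]
  exact lt_of_le_of_lt h2 h

theorem Cls2.good {K : Set (Fin n → ℝ)} (h : Cls2 n K) : Good K := by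
  induction h with
  | old h => exact h.good
  | affRefl hn hK ha hw hR hm =>
    exact good_of hn hK fun S hS => Glob.exact hn hK hS (Or.inl ⟨_, _, _, _, ha, hw, hR, hm⟩)
  | rot hn hU hT hR ht h hF => exact rot_good hn hU hT hR ht h hF
  | prodUnc hq hp hK hU =>
    obtain ⟨h1, h2⟩ := prod_good hq hp hK hU
    exact good_of_lt (by omega) h1 h2
  | sumUnc hq hp hK hK0 hU =>
    obtain ⟨h1, h2⟩ := sum_good hq hp hK hK0 hU
    exact good_of_lt (by omega) h1 h2
  | @rotOne n K T hn hK hR =>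
    have hc : T.card ≤ n := (Finset.card_le_univ _).trans (by simp)
    exact good_of_lt (by omega) hK (rotOne_lt hn hK hR)
  | fibUnc hp hU hK => exact good_of_lt (by omega) hK.2.2.1 (fibUnc_lt hp hU hK)
  | fib hp hV ht h hF => exact fib_good hp hV ht h hF
  | affine hA _ ih => exact ih.aff hA _
  | freeSum hK0 hL0 _ _ ih1 ih2 => exact ih1.freeSum ih2 hK0 hL0
  | uncSum hm _ hc hU h ih => exact good_uncSum hm ih hc hU h
  | slices hK _ h2 ih =>
    exact Fib.good_fibre hK (fun _ => rfl) (fun s hs => ih s (body_slice hK hs))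
      (fun s hs => by rw [← cen_eq]; exact funext (h2 s (body_slice hK hs)).1)
      (fun s hs => by rw [← cov_eq']; ext i j; exact (h2 s (body_slice hK hs)).2 i j)
  | move hr hK _ _ ih1 ih2 => exact Mov.H393.good_move hr hK ih1 ih2

end Vale.Agent.P254.H242
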