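import Vale.Agent.P254.H242.Top

/-!
P254: numerical bounds for bodies with homothetic fibres.
-/

open Set

namespace Vale.Agent.P254.H242

open FV

/-- `simpC (n + 1) ≥ simpC n * exp (- 2 - 2 / ((n + 1) (n + 2)))` for `n ≥ 2` -/
theorem simpC_step {n : ℕ} (hn : 2 ≤ n) :
    simpC n * Real.exp (-2 - 2 * (1 / ((n : ℝ) + 1) - 1 / ((n : ℝ) + 2))) ≤ simpC (n + 1) := by
  have hn' : (2 : ℝ) ≤ n := by exact_mod_cast hn
  set y : ℝ := 1 / ((n : ℝ) + 2) with hy
  have h0 : 0 < y := by rw [hy]; positivity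
  have h1 : y ≤ 1 / 4 := by
    rw [hy]
    exact one_div_le_one_div_of_le (by norm_num) (by linarith)
  have h2 := ratio_le h0.le h1
  have h3 : (1 + y) / (1 - y) = ((n : ℝ) + 3) / (n + 1) := by
    rw [hy]
    have : (n : ℝ) + 2 ≠ 0 := by positivity
    have h4 : (n : ℝ) + 1 ≠ 0 := by positivity
    have h5 : 1 - 1 / ((n : ℝ) + 2) = (n + 1) / (n + 2) := by field_simp; ring
    have h6 : 1 + 1 / ((n : ℝ) + 2) = (n + 3) / (n + 2) := by field_simp; ring
    rw [h5, h6]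
    field_simp
  rw [h3] at h2
  have h4 := pow_le_pow_left₀ (by positivity) h2 (n + 2)
  rw [← Real.exp_nat_mul] at h4
  have h5 : ((n + 2 : ℕ) : ℝ) * (2 * y + y ^ 3) = 2 + y ^ 2 := by
    push_cast
    have h6 : (n : ℝ) + 2 = 1 / y := by rw [hy]; field_simp
    rw [h6]
    field_simp
  rw [h5] at h4
  -- `1 ≤ (1 - y²) exp (1 / ((n + 1) (n + 3)))`
  have h6 : 1 ≤ (1 - y ^ 2) * Real.exp (1 / (((n : ℝ) + 1) * (n + 3))) := by
    have h7 := Real.add_one_le_exp (1 / (((n : ℝ) + 1) * (n + 3)))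
    have h8 : 0 ≤ 1 - y ^ 2 := by nlinarith
    refine le_trans (le_of_eq ?_) (mul_le_mul_of_nonneg_left h7 h8)
    rw [hy]
    field_simp
    ring
  have h7 : y ^ 2 + 1 / (((n : ℝ) + 1) * (n + 3)) ≤ 2 * (1 / ((n : ℝ) + 1) - y) := by
    rw [hy]
    have e1 : 2 * (1 / ((n : ℝ) + 1) - 1 / ((n : ℝ) + 2)) = 1 / (((n : ℝ) + 1) * (n + 2)) +
        1 / (((n : ℝ) + 1) * (n + 2)) := by
      field_simp
      ring
    rw [e1]
    refine add_le_add ?_ ?_
    · rw [_root_.one_div_pow]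
      exact one_div_le_one_div_of_le (by positivity) (by nlinarith)
    · exact one_div_le_one_div_of_le (by positivity) (by nlinarith)
  -- the quotient
  have e : simpC (n + 1) * ((((n : ℝ) + 3) / (n + 1)) ^ (n + 2)) = simpC n * (1 - y ^ 2) := by
    rw [hy]
    unfold simpC
    rw [Nat.factorial_succ]
    push_cast
    have a1 : (n : ℝ) + 1 ≠ 0 := by positivity
    have a2 : (n : ℝ) + 2 ≠ 0 := by positivity
    have a3 : (n : ℝ) + 3 ≠ 0 := by positivity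
    have b1 : (n : ℝ) + 1 + 1 = n + 2 := by ring
    have b2 : (n : ℝ) + 1 + 2 = n + 3 := by ring
    have b3 : 1 - (1 / ((n : ℝ) + 2)) ^ 2 = ((n : ℝ) + 1) * (n + 3) / (n + 2) ^ 2 := by
      field_simp
      ring
    rw [b1, b2, b3, div_pow, mul_pow ((n : ℝ) + 1) ((n : ℝ) + 2), mul_pow ((n : ℝ) + 2)]
    field_simp
    try ring
  have hC := simpC_pos n
  have hC' := simpC_pos (n + 1)
  have h8 : simpC n * (1 - y ^ 2) ≤ simpC (n + 1) * Real.exp (2 + y ^ 2) := by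
    rw [← e]
    exact mul_le_mul_of_nonneg_left h4 hC'.le
  have h9 : simpC n ≤ simpC (n + 1) * Real.exp (2 + 2 * (1 / ((n : ℝ) + 1) - y)) := by
    calc simpC n = simpC n * 1 := (mul_one _).symm
      _ ≤ simpC n * ((1 - y ^ 2) * Real.exp (1 / (((n : ℝ) + 1) * (n + 3)))) :=
          mul_le_mul_of_nonneg_left h6 hC.le
      _ = simpC n * (1 - y ^ 2) * Real.exp (1 / (((n : ℝ) + 1) * (n + 3))) := by ring
      _ ≤ simpC (n + 1) * Real.exp (2 + y ^ 2) * Real.exp (1 / (((n : ℝ) + 1) * (n + 3))) :=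
          mul_le_mul_of_nonneg_right h8 (Real.exp_pos _).le
      _ = simpC (n + 1) * Real.exp (2 + y ^ 2 + 1 / (((n : ℝ) + 1) * (n + 3))) := by
          rw [mul_assoc, ← Real.exp_add]
      _ ≤ _ := mul_le_mul_of_nonneg_left (Real.exp_le_exp.2 (by linarith)) hC'.le
  have h10 : -2 - 2 * (1 / ((n : ℝ) + 1) - y) = -(2 + 2 * (1 / ((n : ℝ) + 1) - y)) := by ring
  rw [h10, Real.exp_neg, ← div_eq_mul_inv, div_le_iff₀ (Real.exp_pos _)]
  exact h9

theorem simpC_add_ge {p : ℕ} (hp : 2 ≤ p) (q : ℕ) :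
    simpC p * Real.exp (-(2 * (q : ℝ)) - 2 * (1 / ((p : ℝ) + 1) - 1 / ((p : ℝ) + q + 1))) ≤
      simpC (q + p) := by
  induction q with
  | zero => simp
  | succ q ih =>
    have h := simpC_step (by omega : 2 ≤ q + p)
    have e : q + 1 + p = q + p + 1 := by ring
    rw [e]
    refine le_trans ?_ h
    refine le_trans (le_of_eq ?_) (mul_le_mul_of_nonneg_right ih (Real.exp_pos _).le)
    rw [mul_assoc, ← Real.exp_add]
    congr 2
    push_cast
    have a1 : (q : ℝ) + p + 2 = p + (q + 1) + 1 := by ring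
    have a2 : (q : ℝ) + p + 1 = p + q + 1 := by ring
    rw [a1, a2]
    ring

/-- the small term in the numerical conditions -/
theorem small_le (q p : ℕ) (c : ℝ) (h : 2 * (q : ℝ) ≤ c * ((p + 1) * (p + q + 1))) :
    2 * (1 / ((p : ℝ) + 1) - 1 / ((p : ℝ) + q + 1)) ≤ c := by
  have e : 2 * (1 / ((p : ℝ) + 1) - 1 / ((p : ℝ) + q + 1)) = 2 * q / ((p + 1) * (p + q + 1)) := by
    field_simp
    ring
  rw [e, div_le_iff₀ (by positivity)]
  exact h

/-- one block of rotations, `q + 13 ≤ 2 p` -/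
theorem rot1_num {q p : ℕ} (h : q + 13 ≤ 2 * p) :
    Real.exp (3 - 33 / 20 * q) * (RR p * simpC p) < simpC (q + p) := by
  have hp : 7 ≤ p := by omega
  have hq : (q : ℝ) + 13 ≤ 2 * p := by exact_mod_cast h
  have hp' : (7 : ℝ) ≤ p := by exact_mod_cast hp
  have hq0 : (0 : ℝ) ≤ q := Nat.cast_nonneg q
  have h1 := one_block (by omega : 5 ≤ p)
  have h2 := simpC_add_ge (by omega : 2 ≤ p) q
  have h3 := small_le q p (3 / 20) (by nlinarith)
  have hC := simpC_pos p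
  refine lt_of_lt_of_le ?_ h2
  have e : Real.exp (3 - 33 / 20 * q) * (RR p * simpC p) =
      simpC p * (Real.exp (3 - 33 / 20 * q) * RR p) := by ring
  rw [e]
  refine mul_lt_mul_of_pos_left ?_ hC
  have h4 : Real.exp (3 - 33 / 20 * q) = Real.exp (-(2 * (q : ℝ)) -
      2 * (1 / ((p : ℝ) + 1) - 1 / ((p : ℝ) + q + 1))) * Real.exp (3 + 7 / 20 * q +
      2 * (1 / ((p : ℝ) + 1) - 1 / ((p : ℝ) + q + 1))) := by
    rw [← Real.exp_add]
    congr 1
    ring
  rw [h4, mul_assoc]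
  refine mul_lt_of_lt_one_right (Real.exp_pos _) (lt_of_le_of_lt ?_ h1)
  refine mul_le_mul_of_nonneg_right (Real.exp_le_exp.2 ?_) (RR_pos p).le
  linarith

/-- unconditional fibres, `5 q + 44 ≤ p` -/
theorem fibUnc_num {q p : ℕ} (h : 5 * q + 44 ≤ p) :
    Real.exp (3 - 33 / 20 * q) * (((p : ℝ) + 1) / (8 * ((p : ℝ) + 2))) ^ p < simpC (q + p) := by
  have hq : 5 * (q : ℝ) + 44 ≤ p := by exact_mod_cast h
  have hq0 : (0 : ℝ) ≤ q := Nat.cast_nonneg q
  have h2 := simpC_add_ge (by omega : 2 ≤ p) q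
  have h3 := small_le q p (1 / 100) (by nlinarith)
  have h1 : Real.exp (7 / 100 * ((p : ℝ) - 1)) * (((p : ℝ) + 1) / (8 * ((p : ℝ) + 2))) ^ p <
      simpC p := by
    rw [Sym.simpC_lt_iff]
    exact unc_num_aux (by omega)
  refine lt_of_lt_of_le ?_ h2
  have h4 : Real.exp (3 - 33 / 20 * q) = Real.exp (3 + 7 / 20 * q +
      2 * (1 / ((p : ℝ) + 1) - 1 / ((p : ℝ) + q + 1))) * Real.exp (-(2 * (q : ℝ)) -
      2 * (1 / ((p : ℝ) + 1) - 1 / ((p : ℝ) + q + 1))) := by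
    rw [← Real.exp_add]
    congr 1
    ring
  have h5 : (0 : ℝ) ≤ (((p : ℝ) + 1) / (8 * ((p : ℝ) + 2))) ^ p := by positivity
  rw [h4, mul_right_comm]
  refine mul_lt_mul_of_pos_right (lt_of_le_of_lt ?_ h1) (Real.exp_pos _)
  refine mul_le_mul_of_nonneg_right (Real.exp_le_exp.2 ?_) h5
  linarith

end Vale.Agent.P254.H242
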