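import Vale.Agent.P254.H242.Exch
import Vale.Agent.P254.Bdl.B20
import Mathlib.MeasureTheory.Constructions.HaarToSphere
import Mathlib.MeasureTheory.Measure.Lebesgue.VolumeOfBalls

/-!
P254: bodies invariant under the rotations in some coordinates: exchange of the balls by simplices.
-/

open MeasureTheory Set Matrix

namespace Vale.Agent.P254.H242

open FV US

variable {n q p : ℕ}

/-! ### the Euclidean gauge -/

/-- the Euclidean norm -/
noncomputable def NN (x : Fin p → ℝ) : ℝ := Real.sqrt (∑ j, x j ^ 2)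

theorem NN_sq (x : Fin p → ℝ) : NN x ^ 2 = ∑ j, x j ^ 2 :=
  Real.sq_sqrt (Finset.sum_nonneg fun _ _ => sq_nonneg _)

theorem NN_eq (x : Fin p → ℝ) : NN x = ‖(WithLp.toLp 2 x : EuclideanSpace ℝ (Fin p))‖ := by
  rw [EuclideanSpace.norm_eq]
  simp [NN]

theorem isG_NN : IsG (NN : (Fin p → ℝ) → ℝ) where
  nonneg := fun x => Real.sqrt_nonneg _
  smul := fun t ht x => by
    rw [NN_eq, NN_eq, WithLp.toLp_smul, norm_smul, Real.norm_of_nonneg ht]
  add := fun x y => by
    rw [NN_eq, NN_eq, NN_eq, WithLp.toLp_add]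
    exact norm_add_le _ _
  cont := by
    unfold NN
    fun_prop
  coer := ⟨1, one_pos, fun x => by
    rw [one_mul]
    refine (pi_norm_le_iff_of_nonneg (Real.sqrt_nonneg _)).2 fun i => ?_
    rw [Real.norm_eq_abs, ← Real.sqrt_sq_eq_abs]
    exact Real.sqrt_le_sqrt
      (Finset.single_le_sum (f := fun j => x j ^ 2) (fun _ _ => sq_nonneg _) (Finset.mem_univ i))⟩

/-- the volume of the unit ball -/
noncomputable def kap (p : ℕ) : ℝ := Real.sqrt Real.pi ^ p / Real.Gamma (p / 2 + 1)

theorem kap_pos (p : ℕ) : 0 < kap p := by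
  unfold kap
  have := Real.Gamma_pos_of_pos (s := (p : ℝ) / 2 + 1) (by positivity)
  have := Real.pi_pos
  positivity

theorem preim_ball : (@WithLp.ofLp 2 (Fin p → ℝ)) ⁻¹' ball NN =
    Metric.closedBall (0 : EuclideanSpace ℝ (Fin p)) 1 := by
  ext y
  rw [mem_preimage, mem_closedBall_zero_iff]
  show NN y.ofLp ≤ 1 ↔ _
  rw [NN_eq]

theorem mb_ofLp : MeasurableEmbedding (@WithLp.ofLp 2 (Fin p → ℝ)) :=
  (MeasurableEquiv.toLp 2 (Fin p → ℝ)).symm.measurableEmbedding

theorem vol_ball (hp : 1 ≤ p) : (volume (ball (NN : (Fin p → ℝ) → ℝ))).toReal = kap p := by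
  have : Nonempty (Fin p) := ⟨⟨0, hp⟩⟩
  rw [← (PiLp.volume_preserving_ofLp (Fin p)).measure_preimage_emb mb_ofLp, preim_ball,
    EuclideanSpace.volume_closedBall, ENNReal.ofReal_one, one_pow, one_mul, Fintype.card_fin,
    ENNReal.toReal_ofReal]
  · rfl
  · exact (kap_pos p).le

theorem mom2 (hp : 1 ≤ p) : ∫ x in ball (NN : (Fin p → ℝ) → ℝ), ∑ j, x j ^ 2 =
    p / (p + 2) * kap p := by
  have : Nonempty (Fin p) := ⟨⟨0, hp⟩⟩
  have hm : MeasurableSet (Metric.closedBall (0 : EuclideanSpace ℝ (Fin p)) 1) :=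
    Metric.isClosed_closedBall.measurableSet
  rw [← (PiLp.volume_preserving_ofLp (Fin p)).setIntegral_preimage_emb mb_ofLp, preim_ball,
    ← integral_indicator hm]
  have e : (Metric.closedBall (0 : EuclideanSpace ℝ (Fin p)) 1).indicator
      (fun y : EuclideanSpace ℝ (Fin p) => ∑ j, (y.ofLp j) ^ 2) =
      fun y => (fun r : ℝ => if r ≤ 1 then r ^ 2 else 0) ‖y‖ := by
    funext y
    by_cases hy : ‖y‖ ≤ 1
    · rw [indicator_of_mem (by rwa [mem_closedBall_zero_iff])]
      simp only [hy, if_true]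
      rw [EuclideanSpace.norm_sq_eq]
      simp
    · rw [indicator_of_notMem (by rwa [mem_closedBall_zero_iff])]
      simp only [hy, if_false]
  rw [e, integral_fun_norm_addHaar]
  have h1 : (volume : Measure (EuclideanSpace ℝ (Fin p))).real (Metric.ball 0 1) = kap p := by
    rw [Measure.real, EuclideanSpace.volume_ball, ENNReal.ofReal_one, one_pow, one_mul,
      Fintype.card_fin, ENNReal.toReal_ofReal]
    · rfl
    · exact (kap_pos p).le
  have h2 : ∫ y in Ioi (0 : ℝ), y ^ (Module.finrank ℝ (EuclideanSpace ℝ (Fin p)) - 1) •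
      (if y ≤ 1 then y ^ 2 else 0) = 1 / (p + 2) := by
    rw [finrank_euclideanSpace_fin]
    have h3 : ∀ y : ℝ, y ^ (p - 1) • (if y ≤ 1 then y ^ 2 else 0) =
        (Iic (1 : ℝ)).indicator (fun y => y ^ (p + 1)) y := by
      intro y
      by_cases hy : y ≤ 1
      · rw [indicator_of_mem (by exact hy)]
        simp only [hy, if_true, smul_eq_mul]
        rw [← pow_add]
        congr 1
        omega
      · rw [indicator_of_notMem (by exact hy)]
        simp only [hy, if_false, smul_zero]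
    simp_rw [h3]
    rw [setIntegral_indicator measurableSet_Iic, Ioi_inter_Iic,
      ← intervalIntegral.integral_of_le zero_le_one, integral_pow]
    push_cast
    simp
    ring
  rw [h1, h2, finrank_euclideanSpace_fin]
  simp only [nsmul_eq_mul, smul_eq_mul]
  field_simp

theorem ball_cen (j : Fin p) : ∫ x in ball (NN : (Fin p → ℝ) → ℝ), x j = 0 := by
  have h1 : (fun x : Fin p → ℝ => -x) ⁻¹' ball NN = ball NN := by
    ext x
    simp only [ball, mem_preimage, mem_ofPred_eq, NN, Pi.neg_apply, neg_sq]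
  have h2 := (Measure.measurePreserving_neg (volume : Measure (Fin p → ℝ))).setIntegral_preimage_emb
    (MeasurableEquiv.neg (Fin p → ℝ)).measurableEmbedding (fun x => x j) (ball NN)
  have h3 : ∫ x in ball (NN : (Fin p → ℝ) → ℝ), (-x) j = ∫ x in ball (NN : (Fin p → ℝ) → ℝ), x j := by
    rw [← h2]
    congr 1
    exact congrArg _ h1.symm
  simp only [Pi.neg_apply] at h3
  rw [integral_neg] at h3
  linarith

/-- `D(B^p) / D(Δ_p)` -/
noncomputable def RR (p : ℕ) : ℝ := ((p : ℝ) + 1) ^ (p + 1) / (p.factorial * kap p) ^ 2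

theorem RR_pos (p : ℕ) : 0 < RR p := by
  unfold RR
  have := kap_pos p
  positivity

theorem Dn_ball (hp : 1 ≤ p) : Dn (ball (NN : (Fin p → ℝ) → ℝ)) ≤ RR p * simpC p := by
  have hk := kap_pos p
  have hp0 : (0 : ℝ) < p := by exact_mod_cast hp
  have hc : IsCompact (ball (NN : (Fin p → ℝ) → ℝ)) := isG_NN.compact_le 1
  have hV : (volume (ball (NN : (Fin p → ℝ) → ℝ))).toReal ≠ 0 := by
    rw [vol_ball hp]
    exact hk.ne'
  have hP := covMatrix_posSemidef hc
  have h1 := det_mul_det_le hp Matrix.PosSemidef.one hP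
  rw [det_one, one_mul, one_mul] at h1
  have h2 : (covMatrix (ball (NN : (Fin p → ℝ) → ℝ))).trace = p / (p + 2) := by
    have h3 : ∀ j : Fin p, covMatrix (ball (NN : (Fin p → ℝ) → ℝ)) j j =
        (kap p)⁻¹ * ∫ x in ball (NN : (Fin p → ℝ) → ℝ), x j ^ 2 := by
      intro j
      have h0 : centroid (ball (NN : (Fin p → ℝ) → ℝ)) j = 0 := by
        rw [centroid, ball_cen, mul_zero]
      rw [covMatrix, vol_ball hp, h0]
      congr 1
      refine integral_congr_ae (Filter.Eventually.of_forall fun x => ?_)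
      show (x j - 0) * (x j - 0) = x j ^ 2
      ring
    simp only [trace, diag_apply]
    simp_rw [h3]
    rw [← Finset.mul_sum, ← integral_finsetSum _ (fun j _ => ?_), mom2 hp]
    · field_simp
    · exact (ContinuousOn.integrableOn_compact hc (by fun_prop))
  rw [h2] at h1
  unfold Dn RR simpC
  rw [vol_ball hp]
  have h4 : (p : ℝ) / (p + 2) / p = 1 / (p + 2) := by field_simp
  rw [h4] at h1
  refine (div_le_div_of_nonneg_right h1 (by positivity)).trans (le_of_eq ?_)
  rw [mul_pow ((p : ℝ) + 1), one_div, inv_pow]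
  field_simp
  ring

end Vale.Agent.P254.H242
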